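import Vale.Agent.P167.SLE.Main6
import Vale.Agent.P167.E6.Defs
import Vale.Agent.P153.R2.M1.Path

/-!
# P167, block ASM6: the curve theorem from its inputs

`S_seq` is the input from the lattice side (all approximations of all marked Jordan domains),
`curveLimit` is the assembly.
-/

open MeasureTheory ProbabilityTheory Set Filter Topology Metric
open scoped NNReal ENNReal

namespace Vale.Agent.P167.SLE

open Vale.Agent.P153.R2 Vale.Agent.P153.R2.ARCX Vale.Agent.P153.R2.DET Vale.Agent.P153.R2.UNIQ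
open Vale.Agent.P153.R2.C1 Vale.Agent.P167.E6
open Vale.Agent.P153.R2.Final (dom circ toC IsUniformizer)
open Vale.Agent.P164 (IsSLE IsTrace)

/-! ### The configurations as a probability space -/

/-- the configurations of open edges -/
def Cf (S : Finset (ℤ × ℤ)) : Type :=
  {A : Finset (Sym2 (ℤ × ℤ)) // A ∈ (edges S).powerset}

noncomputable instance (S : Finset (ℤ × ℤ)) : Fintype (Cf S) :=
  inferInstanceAs (Fintype {A : Finset (Sym2 (ℤ × ℤ)) // A ∈ (edges S).powerset})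

instance (S : Finset (ℤ × ℤ)) : MeasurableSpace (Cf S) := ⊤

instance (S : Finset (ℤ × ℤ)) : DiscreteMeasurableSpace (Cf S) := ⟨fun _ => trivial⟩

/-- the law of the configuration: all sets of open edges have the same probability -/
noncomputable def law (S : Finset (ℤ × ℤ)) : Measure (Cf S) :=
  ((2 : ℝ≥0∞) ^ (edges S).card)⁻¹ • Measure.count

theorem card_cf (S : Finset (ℤ × ℤ)) : Fintype.card (Cf S) = 2 ^ (edges S).card := by
  rw [← Finset.card_powerset]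
  exact Fintype.card_coe _

instance (S : Finset (ℤ × ℤ)) : IsProbabilityMeasure (law S) := by
  constructor
  rw [law, Measure.smul_apply, Measure.count_univ, ENat.card_eq_coe_fintype_card, card_cf,
    smul_eq_mul]
  have h : ((2 ^ (edges S).card : ℕ) : ℕ∞) = ((2 : ℕ) ^ (edges S).card : ℕ) := rfl
  simp only [Nat.cast_pow, Nat.cast_ofNat, ENat.toENNReal_pow, ENat.toENNReal_ofNat]
  exact ENNReal.inv_mul_cancel (by positivity) (by simp)

theorem mean_eq (S : Finset (ℤ × ℤ)) (F : Finset (Sym2 (ℤ × ℤ)) → ℝ) :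
    mean S F = ∫ A : Cf S, F A.1 ∂(law S) := by
  rw [law, integral_smul_measure, integral_count, mean]
  have h : ∑ A : Cf S, F A.1 = ∑ A ∈ (edges S).powerset, F A :=
    Finset.sum_coe_sort ((edges S).powerset) F
  rw [h, ENNReal.toReal_inv, ENNReal.toReal_pow, ENNReal.toReal_ofNat, smul_eq_mul, div_eq_inv_mul]

/-! ### Inputs -/

/-- the law of the driver of `SLE_6` -/
def IsDrv6 [MeasurableSpace C(ℝ≥0, ℝ)] (lam : Measure C(ℝ≥0, ℝ)) : Prop :=
  IsBrownianReal (fun (t : ℝ≥0) (w : C(ℝ≥0, ℝ)) => w t / √6) lam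

/-- the marked point `b` -/
noncomputable def bq (Φ : (ℝ × ℝ) ≃ₜ (ℝ × ℝ)) : ℂ := toC (Φ (circ Real.pi))

/-- The input from the lattice side: for every approximation of a marked Jordan domain there are
(from some index `n₀` on) simple curves `X`, close to the interfaces, with the properties
`SeqHyp`. -/
def S_seq : Prop := ∀ [MeasurableSpace C(ℝ≥0, ℝ)] [BorelSpace C(ℝ≥0, ℝ)]
  (Φ : (ℝ × ℝ) ≃ₜ (ℝ × ℝ)) (ψ : ℂ → ℂ), IsUniformizer Φ ψ →
  ∀ (δ : ℕ → ℝ) (N k : ℕ → ℕ) (p : ∀ n, ZMod (N n) → ℤ × ℤ) (S : ℕ → Finset (ℤ × ℤ)),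
    Approx Φ δ N k p S →
    ∃ (n₀ : ℕ) (ψn : ℕ → ℂ → ℂ) (bn : ℕ → ℂ) (ε : ℕ → ℝ)
      (X : ∀ n, Cf (S (n + n₀)) → C(unitInterval, ℂ))
      (xs : ∀ n, Cf (S (n + n₀)) → ℝ → ℂ) (cs : ∀ n, Cf (S (n + n₀)) → ℝ → ℝ)
      (w : ∀ n, Cf (S (n + n₀)) → C(ℝ≥0, ℝ)) (T0 T1 : ∀ n, Cf (S (n + n₀)) → ℝ)
      (lam : Measure C(ℝ≥0, ℝ)) (R : ℝ) (e : ℕ → ℝ), IsDrv6 lam ∧
      SeqHyp ψn ψ bn (bq Φ) ε (fun n => Cf (S (n + n₀))) (fun n => law (S (n + n₀))) X xs cs w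
        T0 T1 lam R ∧
      Tendsto e atTop (𝓝 0) ∧
      ∀ (n : ℕ) (A : Cf (S (n + n₀))) (c : C(unitInterval, ℂ)),
        IsInterface (p (n + n₀)) (k (n + n₀)) (δ (n + n₀)) A.1 c →
        ∃ φ : unitInterval ≃o unitInterval, dist (reparam c φ) (X n A) ≤ e n

/-- existence of the interface -/
def S_intf : Prop := ∀ (n k : ℕ) (p : ZMod n → ℤ × ℤ) (S : Finset (ℤ × ℤ)) (δ : ℝ), 0 < δ →
  0 < k → k < n → IsPolygon p → Encloses p S → ∀ A ⊆ edges S, ∃ c, IsInterface p k δ A c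

/-- there is an approximated domain -/
def S_exap : Prop := ∃ (Φ : (ℝ × ℝ) ≃ₜ (ℝ × ℝ)) (δ : ℕ → ℝ) (N k : ℕ → ℕ)
  (p : ∀ n, ZMod (N n) → ℤ × ℤ) (S : ℕ → Finset (ℤ × ℤ)), Approx Φ δ N k p S

/-! ### The law of the driver is unique -/

section Law

variable [MeasurableSpace C(ℝ≥0, ℝ)] [BorelSpace C(ℝ≥0, ℝ)]

omit [MeasurableSpace C(ℝ≥0, ℝ)] [BorelSpace C(ℝ≥0, ℝ)] in
theorem sqrt6_ne : √(6 : ℝ) ≠ 0 := by positivity

theorem fdd6 {lam : Measure C(ℝ≥0, ℝ)} (h : IsDrv6 lam) (I : Finset ℝ≥0) :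
    lam.map (fun f => I.restrict (fun t => f t)) =
      (BrownianReal.projectiveFamily I).map (fun x => fun i => √6 * x i) := by
  have h1 := (h.hasLaw I).map_eq
  rw [← h1]
  have hm2 : Measurable fun (x : C(ℝ≥0, ℝ)) => I.restrict (fun t => x t / √6) :=
    measurable_pi_lambda _ fun t =>
      ((continuous_eval_const (t : ℝ≥0)).measurable).div_const _
  rw [Measure.map_map (by fun_prop) hm2]
  congr 1
  funext x
  funext i
  simp only [Function.comp_apply, Finset.restrict]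
  rw [mul_div_cancel₀ _ sqrt6_ne]

theorem drv6_unique {lam lam' : Measure C(ℝ≥0, ℝ)} (h : IsDrv6 lam) (h' : IsDrv6 lam') :
    lam = lam' := by
  have : IsProbabilityMeasure lam := h.isGaussianProcess.isProbabilityMeasure
  have : IsProbabilityMeasure lam' := h'.isGaussianProcess.isProbabilityMeasure
  exact Vale.Agent.P153.M1.path_ext fun I => by rw [fdd6 h, fdd6 h']

end Law

theorem uni_of_uniformizer (h : I_uinj) {Φ : (ℝ × ℝ) ≃ₜ (ℝ × ℝ)} {ψ : ℂ → ℂ}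
    (hψ : IsUniformizer Φ ψ) : Uni ψ (bq Φ) := by
  obtain ⟨h1, h2, h3, h4, h5, h6⟩ := hψ
  obtain ⟨h7, h8⟩ := h Φ ψ ⟨h1, h2, h3, h4, h5, h6⟩
  exact ⟨h4, h7, h6, h8⟩

/-- **The assembly of the curve theorem.** -/
theorem curveLimit (hunif : I_unif) (huinj : I_uinj) (hseq : S_seq) (hintf : S_intf)
    (hexap : S_exap) : E6.CurveLimit := by
  classical
  let _ : MeasurableSpace C(ℝ≥0, ℝ) := borel _
  have _ : BorelSpace C(ℝ≥0, ℝ) := ⟨rfl⟩
  let _ : MeasurableSpace C(unitInterval, ℂ) := borel _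
  have _ : BorelSpace C(unitInterval, ℂ) := ⟨rfl⟩
  -- the interfaces exist
  have hint : ∀ (Φ : (ℝ × ℝ) ≃ₜ (ℝ × ℝ)) (δ : ℕ → ℝ) (N k : ℕ → ℕ)
      (p : ∀ n, ZMod (N n) → ℤ × ℤ) (S : ℕ → Finset (ℤ × ℤ)), Approx Φ δ N k p S →
      ∀ n, ∀ A ⊆ edges (S n), ∃ c, IsInterface (p n) (k n) (δ n) A c := by
    intro Φ δ N k p S hA n A hAS
    obtain ⟨h1, h2, h3, h4, h5⟩ := hA.1 n
    exact hintf (N n) (k n) (p n) (S n) (δ n) h1 h2 h3 h4 h5 A hAS
  -- convergence in all domains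
  have hconv : ∀ (Φ : (ℝ × ℝ) ≃ₜ (ℝ × ℝ)) (ψ : ℂ → ℂ), IsUniformizer Φ ψ →
      ∀ (δ : ℕ → ℝ) (N k : ℕ → ℕ) (p : ∀ n, ZMod (N n) → ℤ × ℤ) (S : ℕ → Finset (ℤ × ℤ)),
        Approx Φ δ N k p S → ∀ c : ∀ n, Finset (Sym2 (ℤ × ℤ)) → C(unitInterval, ℂ),
        (∀ n, ∀ A ⊆ edges (S n), IsInterface (p n) (k n) (δ n) A (c n A)) →
        ∃ (lam : Measure C(ℝ≥0, ℝ)) (ν : Measure (C(ℝ≥0, ℝ) × C(unitInterval, ℂ))),
          IsDrv6 lam ∧ IsLim ψ (bq Φ) lam ν ∧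
          ∀ F : C(unitInterval, ℂ) → ℝ, Continuous F → (∃ M, ∀ x, |F x| ≤ M) →
            (∀ (x : C(unitInterval, ℂ)) (σ : unitInterval ≃o unitInterval),
              F (reparam x σ) = F x) →
            Tendsto (fun n => mean (S n) fun A => F (c n A)) atTop (𝓝 (∫ q, F q.2 ∂ν)) := by
    intro Φ ψ hψ δ N k p S hA c hc
    obtain ⟨n₀, ψn, bn, ε, X, xs, cs, w, T0, T1, lam, R, e, hlam, hS, he, hclose⟩ :=
      hseq Φ ψ hψ δ N k p S hA
    obtain ⟨ν, hν, hF⟩ := seq_main hS (fun n (A : Cf (S (n + n₀))) => c (n + n₀) A.1) e he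
      (fun n A => hclose n A (c (n + n₀) A.1) (hc (n + n₀) A.1 (Finset.mem_powerset.1 A.2)))
    refine ⟨lam, ν, hlam, hν, fun F hFc hM hinv => ?_⟩
    rw [← tendsto_add_atTop_iff_nat n₀]
    refine (hF F hFc hM hinv).congr fun n => ?_
    exact (mean_eq (S (n + n₀)) fun A => F (c (n + n₀) A)).symm
  -- the reference domain
  obtain ⟨Φ0, δ0, N0, k0, p0, S0, hA0⟩ := hexap
  obtain ⟨ψ0, hψ0⟩ := hunif Φ0
  have hc0 : ∀ n (A : Finset (Sym2 (ℤ × ℤ))), ∃ c : C(unitInterval, ℂ), A ⊆ edges (S0 n) →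
      IsInterface (p0 n) (k0 n) (δ0 n) A c := by
    intro n A
    by_cases h : A ⊆ edges (S0 n)
    · obtain ⟨c, hc⟩ := hint Φ0 δ0 N0 k0 p0 S0 hA0 n A h
      exact ⟨c, fun _ => hc⟩
    · exact ⟨0, fun h' => absurd h' h⟩
  choose c0 hc0 using hc0
  obtain ⟨lam, ν0, hlam, hν0, -⟩ := hconv Φ0 ψ0 hψ0 δ0 N0 k0 p0 S0 hA0 c0 hc0
  have hU0 := uni_of_uniformizer huinj hψ0
  have hνp := hν0.prob
  -- the trace
  set γ : C(ℝ≥0, ℝ) × C(unitInterval, ℂ) → ℝ → ℂ := fun q =>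
    if h : CapG ψ0 (bq Φ0) q.1 q.2 then h.choose else 0 with hγ
  have hγs : ∀ᵐ q ∂ν0, IsTrace (fun t => q.1 t.toNNReal) (γ q) ∧ q.2 1 = bq Φ0 ∧
      ∀ t : unitInterval, (t : ℝ) < 1 → q.2 t = ψ0 (γ q (t / (1 - t))) := by
    filter_upwards [hν0.cap] with q hq
    simp only [hγ, dif_pos hq]
    exact hq.choose_spec
  refine ⟨C(ℝ≥0, ℝ) × C(unitInterval, ℂ), inferInstance, ν0, hνp, γ, ?_, ?_⟩
  · refine ⟨fun t q => q.1 t / √6, ?_, ?_⟩
    · have h1 : MeasurePreserving (Prod.fst : C(ℝ≥0, ℝ) × C(unitInterval, ℂ) → C(ℝ≥0, ℝ)) ν0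
          lam := ⟨measurable_fst, hν0.fst⟩
      refine ⟨⟨fun I => ?_⟩, ae_of_all _ fun q => q.1.continuous.div_const _⟩
      exact (hlam.hasLaw I).comp h1.hasLaw
    · filter_upwards [hγs] with q hq
      have h1 : (fun t : ℝ => √6 * (q.1 t.toNNReal / √6)) = fun t => q.1 t.toNNReal := by
        funext t
        rw [mul_div_cancel₀ _ sqrt6_ne]
      rw [h1]
      exact hq.1
  · intro Φ
    refine ⟨hunif Φ, fun ψ hψ => ?_⟩
    have hU := uni_of_uniformizer huinj hψ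
    obtain ⟨f, hfb, hfψ⟩ := exists_transfer hU0 hU
    have hfc : Continuous fun x : C(unitInterval, ℂ) => f.comp x :=
      ContinuousMap.continuous_postcomp f
    have hG : ∀ᵐ q ∂ν0, f.comp q.2 1 = bq Φ ∧
        ∀ t : unitInterval, (t : ℝ) < 1 → f.comp q.2 t = ψ (γ q (t / (1 - t))) := by
      filter_upwards [hγs] with q hq
      refine ⟨?_, fun t ht => ?_⟩
      · rw [ContinuousMap.comp_apply, hq.2.1, hfb]
      · have h3 : (0 : ℝ) ≤ t / (1 - t) := div_nonneg t.2.1 (by linarith)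
        rw [ContinuousMap.comp_apply, hq.2.2 t ht, hfψ _ (hq.1.im_nonneg _ h3)]
    refine ⟨fun q => f.comp q.2, hG, ?_, ?_⟩
    · intro F hF
      exact ((hF.comp hfc).measurable.comp measurable_snd).aemeasurable
    · intro δ N k p S hA
      refine ⟨hint Φ δ N k p S hA, fun c hc F hF hM hinv => ?_⟩
      obtain ⟨lam', ν, hlam', hν, hlim⟩ := hconv Φ ψ hψ δ N k p S hA c hc
      have h1 := hlim F hF hM fun x σ => hinv x ⟨σ, σ.continuous⟩ σ.strictMono σ.surjective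
      have hπ : Measurable fun q : C(ℝ≥0, ℝ) × C(unitInterval, ℂ) => (q.1, f.comp q.2) :=
        measurable_fst.prodMk (hfc.measurable.comp measurable_snd)
      have hπc : Continuous fun q : C(ℝ≥0, ℝ) × C(unitInterval, ℂ) => (q.1, f.comp q.2) :=
        continuous_fst.prodMk (hfc.comp continuous_snd)
      have h2 : IsLim ψ (bq Φ) lam' (ν0.map fun q => (q.1, f.comp q.2)) := by
        refine ⟨Measure.isProbabilityMeasure_map hπ.aemeasurable, ?_, ?_⟩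
        · rw [Measure.map_map measurable_fst hπ, drv6_unique hlam' hlam, ← hν0.fst]
          rfl
        · refine ae_map_of_continuous ν0 hπc (p := fun q : C(ℝ≥0, ℝ) × C(unitInterval, ℂ) =>
            CapG ψ (bq Φ) q.1 q.2) ?_
          filter_upwards [hγs, hG] with q hq1 hq2
          exact ⟨γ q, hq1.1, hq2.1, hq2.2⟩
      rw [hν.unique h2] at h1
      have h3 : ∫ q, F q.2 ∂(ν0.map fun q => (q.1, f.comp q.2)) = ∫ q, F (f.comp q.2) ∂ν0 :=
        integral_map (f := fun q : C(ℝ≥0, ℝ) × C(unitInterval, ℂ) => F q.2) hπ.aemeasurable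
          (hF.comp continuous_snd).aestronglyMeasurable
      rw [h3] at h1
      exact h1

end Vale.Agent.P167.SLE
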