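import Vale.Agent.P167.SLE.Seq6

/-!
# P167, block ASM6: the limit of a sequence, and the transfer between domains
-/

open MeasureTheory Set Filter Topology Metric Vale.Agent.P164
open scoped NNReal ENNReal

namespace Vale.Agent.P167.SLE

open Vale.Agent.P153.R2 Vale.Agent.P153.R2.ARCX Vale.Agent.P153.R2.DET Vale.Agent.P153.R2.UNIQ
open Vale.Agent.P153.R2.C1

/-- Curves close to the curves `X n` of `SeqHyp` converge in law modulo reparametrisation. -/
theorem seq_main [MeasurableSpace C(unitInterval, ℂ)] [BorelSpace C(unitInterval, ℂ)]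
    [MeasurableSpace C(ℝ≥0, ℝ)] [BorelSpace C(ℝ≥0, ℝ)]
    {ψn : ℕ → ℂ → ℂ} {ψ : ℂ → ℂ} {bn : ℕ → ℂ} {b : ℂ} {ε : ℕ → ℝ}
    {Ω : ℕ → Type} [∀ n, MeasurableSpace (Ω n)] [∀ n, DiscreteMeasurableSpace (Ω n)]
    {P : ∀ n, Measure (Ω n)} {X : ∀ n, Ω n → C(unitInterval, ℂ)} {xs : ∀ n, Ω n → ℝ → ℂ}
    {cs : ∀ n, Ω n → ℝ → ℝ} {w : ∀ n, Ω n → C(ℝ≥0, ℝ)} {T0 T1 : ∀ n, Ω n → ℝ}
    {lam : Measure C(ℝ≥0, ℝ)} {R : ℝ} (H : SeqHyp ψn ψ bn b ε Ω P X xs cs w T0 T1 lam R)
    (Y : ∀ n, Ω n → C(unitInterval, ℂ)) (e : ℕ → ℝ) (he : Tendsto e atTop (𝓝 0))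
    (hY : ∀ n ω, ∃ φ : unitInterval ≃o unitInterval, dist (reparam (Y n ω) φ) (X n ω) ≤ e n) :
    ∃ ν : Measure (C(ℝ≥0, ℝ) × C(unitInterval, ℂ)), IsLim ψ b lam ν ∧
      ∀ F : C(unitInterval, ℂ) → ℝ, Continuous F → (∃ M, ∀ x, |F x| ≤ M) →
        (∀ (x : C(unitInterval, ℂ)) (σ : unitInterval ≃o unitInterval), F (reparam x σ) = F x) →
        Tendsto (fun n => ∫ ω, F (Y n ω) ∂(P n)) atTop (𝓝 (∫ p, F p.2 ∂ν)) := by
  obtain ⟨θ0, ν0, -, hν0, -⟩ := seq_sub H Y e he hY id strictMono_id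
  refine ⟨ν0, hν0, fun F hF hM hinv => ?_⟩
  refine tendsto_of_subseq_tendsto fun κ hκ => ?_
  obtain ⟨σ, hσ⟩ := strictMono_subseq_of_tendsto_atTop hκ
  obtain ⟨θ, ν, -, hν, h⟩ := seq_sub H Y e he hY (κ ∘ σ) hσ.2
  refine ⟨σ ∘ θ, ?_⟩
  have h1 := h F hF hM hinv
  rw [hν.unique hν0] at h1
  exact h1

/-- Two uniformizers differ by a map which is continuous up to the boundary. -/
theorem exists_transfer {ψ ψ' : ℂ → ℂ} {b b' : ℂ} (h : Uni ψ b) (h' : Uni ψ' b') :
    ∃ f : C(ℂ, ℂ), f b = b' ∧ ∀ z ∈ HC, f (ψ z) = ψ' z := by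
  classical
  set K : Set ℂ := ψ '' HC ∪ {b} with hK
  set g : ℂ → ℂ := fun q => if q = b then b' else ψ' (Function.invFunOn ψ HC q) with hg
  have hgb : g b = b' := by simp [hg]
  have hgψ : ∀ z ∈ HC, g (ψ z) = ψ' z := by
    intro z hz
    have h1 : Function.invFunOn ψ HC (ψ z) = z := by
      have h2 : ψ z ∈ ψ '' HC := ⟨z, hz, rfl⟩
      exact h.inj (Function.invFunOn_mem h2) hz (Function.invFunOn_eq h2)
    simp only [hg, if_neg (h.ne z hz), h1]
  have hKc : IsClosed K := by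
    rw [isClosed_iff_ultrafilter]
    intro q U hUq hKU
    by_cases hqb : q = b
    · exact Or.inr hqb
    have h1 : ψ '' HC ∈ U := by
      have h2 : ∀ᶠ x in (U : Filter ℂ), x ≠ b := hUq (isOpen_ne.mem_nhds hqb)
      have h3 : ∀ᶠ x in (U : Filter ℂ), x ∈ K := hKU
      filter_upwards [h2, h3] with x hx1 hx2
      exact hx2.resolve_right hx1
    have h2 : ∀ᶠ x in (U : Filter ℂ), Function.invFunOn ψ HC x ∈ HC := by
      filter_upwards [h1] with x hx
      exact Function.invFunOn_mem hx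
    have h3 : Tendsto (fun x => ψ (Function.invFunOn ψ HC x)) U (𝓝 q) := by
      refine (show Tendsto (fun x : ℂ => x) U (𝓝 q) from hUq).congr' ?_
      filter_upwards [h1] with x hx
      exact (Function.invFunOn_eq hx).symm
    obtain ⟨y, hy, hyq⟩ := h.exists h2 hqb h3
    exact Or.inl ⟨y, hy, hyq⟩
  have hgc : ContinuousOn g K := by
    intro q hq
    rw [ContinuousWithinAt, tendsto_iff_ultrafilter]
    intro U hU
    have hUq : (U : Filter ℂ) ≤ 𝓝 q := hU.trans nhdsWithin_le_nhds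
    have hUK : K ∈ U := hU self_mem_nhdsWithin
    by_cases hUb : {b} ∈ U
    · have h1 : ∀ᶠ x in (U : Filter ℂ), x = b := hUb
      have h2 : q = b := by
        by_contra hcon
        have h3 : ∀ᶠ x in (U : Filter ℂ), x ≠ b := hUq (isOpen_ne.mem_nhds hcon)
        obtain ⟨x, hx1, hx2⟩ := (h1.and h3).exists
        exact hx2 hx1
      refine Tendsto.congr' ?_ (tendsto_const_nhds (x := g q))
      filter_upwards [h1] with x hx
      rw [hx, h2]
    have h1 : ψ '' HC ∈ U := by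
      have h2 : ∀ᶠ x in (U : Filter ℂ), x ≠ b := Ultrafilter.compl_mem_iff_notMem.2 hUb
      filter_upwards [h2, hUK] with x hx1 hx2
      exact hx2.resolve_right hx1
    have h2 : ∀ᶠ x in (U : Filter ℂ), Function.invFunOn ψ HC x ∈ HC := by
      filter_upwards [h1] with x hx
      exact Function.invFunOn_mem hx
    have h3 : Tendsto (fun x => ψ (Function.invFunOn ψ HC x)) U (𝓝 q) := by
      refine (show Tendsto (fun x : ℂ => x) U (𝓝 q) from hUq).congr' ?_
      filter_upwards [h1] with x hx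
      exact (Function.invFunOn_eq hx).symm
    have hge : ∀ᶠ x in (U : Filter ℂ), g x = ψ' (Function.invFunOn ψ HC x) := by
      filter_upwards [h1] with x hx
      obtain ⟨z, hz, rfl⟩ := hx
      rw [hgψ z hz]
      have h2 : ψ z ∈ ψ '' HC := ⟨z, hz, rfl⟩
      rw [h.inj (Function.invFunOn_mem h2) hz (Function.invFunOn_eq h2)]
    by_cases hqb : q = b
    · -- the preimages tend to infinity
      rw [hqb, hgb]
      have h4 : Tendsto (Function.invFunOn ψ HC) U (Bornology.cobounded ℂ ⊓ 𝓟 HC) := by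
        rw [tendsto_inf, tendsto_principal]
        refine ⟨?_, h2⟩
        by_contra hcon
        obtain ⟨s, hs, hsU⟩ := Filter.not_tendsto_iff_exists_frequently_notMem.1 hcon
        obtain ⟨R, hRs⟩ := (hasBasis_cobounded_compl_closedBall (0 : ℂ)).mem_iff.1 hs
        have h5 : ∀ᶠ x in (U : Filter ℂ), Function.invFunOn ψ HC x ∉ s :=
          (Ultrafilter.frequently_iff_eventually).1 hsU
        have hKc : IsCompact (closedBall (0 : ℂ) R ∩ HC) :=
          (isCompact_closedBall _ _).inter_right isClosed_HC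
        obtain ⟨y, hy, hyU⟩ := hKc.ultrafilter_le_nhds (U.map (Function.invFunOn ψ HC))
          (le_principal_iff.2 (by
            rw [Ultrafilter.mem_coe, Ultrafilter.mem_map]
            filter_upwards [h5, h2] with x hx1 hx2
            refine ⟨?_, hx2⟩
            by_contra h6
            exact hx1 (hRs.2 h6)))
        have h6 : Tendsto (fun x => ψ (Function.invFunOn ψ HC x)) U (𝓝 (ψ y)) :=
          (h.cont y hy.2).tendsto.comp (tendsto_nhdsWithin_iff.2 ⟨hyU, h2⟩)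
        exact h.ne y hy.2 ((tendsto_nhds_unique h6 h3).trans hqb)
      exact (h'.inf.comp h4).congr' (by filter_upwards [hge] with x hx; exact hx.symm)
    · obtain ⟨y, hy, hyq⟩ := h.exists h2 hqb h3
      rw [← hyq] at h3
      have h4 := h.tendsto h2 hy h3
      rw [← hyq, hgψ y hy]
      have h5 : Tendsto (fun x => ψ' (Function.invFunOn ψ HC x)) U (𝓝 (ψ' y)) :=
        (h'.cont y hy).tendsto.comp (tendsto_nhdsWithin_iff.2 ⟨h4, h2⟩)
      exact h5.congr' (by filter_upwards [hge] with x hx; exact hx.symm)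
  obtain ⟨f, hf⟩ := ContinuousMap.exists_restrict_eq hKc ⟨K.domRestrict g, hgc.domRestrict⟩
  have hfK : ∀ q ∈ K, f q = g q := by
    intro q hq
    have := congrArg (fun F : C(K, ℂ) => F ⟨q, hq⟩) hf
    exact this
  refine ⟨f, ?_, fun z hz => ?_⟩
  · rw [hfK b (Or.inr rfl), hgb]
  · rw [hfK _ (Or.inl ⟨z, hz, rfl⟩), hgψ z hz]

end Vale.Agent.P167.SLE
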