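import Vale.Agent.P153.R2.UNIQ.Ecm

/-!
# P167, block ASM6: a support lemma with bad events of small probability
-/

open MeasureTheory Set Filter Topology
open scoped ENNReal

namespace Vale.Agent.P167.SLE

open Vale.Agent.P153.R2.C1 Vale.Agent.P153.R2.UNIQ

/-- If `V n → ν` in law and the events `B n m` have (eventually in `n`) arbitrarily small
probability for suitable `m`, then almost every point of the limit is a limit along a subsequence of
values of `V` off the events `B n m`, for some `m`. -/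
theorem support_freq {E : Type*} [PseudoMetricSpace E] [SecondCountableTopology E]
    [MeasurableSpace E] [BorelSpace E]
    (Ω : ℕ → Type*) [∀ n, MeasurableSpace (Ω n)] (P : ∀ n, Measure (Ω n))
    (hP : ∀ n, IsProbabilityMeasure (P n)) (V : ∀ n, Ω n → E) (hV : ∀ n, Measurable (V n))
    (ν : Measure E) [IsProbabilityMeasure ν]
    (hlim : ∀ f : E → ℝ, Continuous f → (∃ C, ∀ x, |f x| ≤ C) →
      Tendsto (fun n => ∫ ω, f (V n ω) ∂(P n)) atTop (𝓝 (∫ x, f x ∂ν)))
    (B : ∀ n, ℕ → Set (Ω n))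
    (hB : ∀ q : ℝ≥0∞, 0 < q → ∃ m, ∀ᶠ n in atTop, P n (B n m) ≤ q) :
    ∀ᵐ x ∂ν, ∃ (m : ℕ) (k : ℕ → ℕ) (_ : StrictMono k) (ω : ∀ j, Ω (k j)),
      (∀ j, ω j ∉ B (k j) m) ∧ Tendsto (fun j => V (k j) (ω j)) atTop (𝓝 x) := by
  have hpV : ∀ n, IsProbabilityMeasure ((P n).map (V n)) := fun n =>
    Measure.isProbabilityMeasure_map (hV n).aemeasurable
  have hlimV : Tendsto (fun n => toPM ((P n).map (V n)) (hpV n)) atTop
      (𝓝 (toPM ν inferInstance)) := by
    refine tendsto_pm _ _ _ _ fun f hf hC => (hlim f hf hC).congr fun n => ?_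
    exact (integral_map (hV n).aemeasurable hf.aestronglyMeasurable).symm
  set C : ℕ → ℕ → Set E := fun m N =>
    {x | ∀ n ≥ N, ∀ ω : Ω n, ω ∉ B n m → 1 / ((N : ℝ) + 1) ≤ dist (V n ω) x} with hC
  have hmono : ∀ m, Monotone (C m) := by
    intro m N N' hN x hx n hn ω hω
    refine le_trans ?_ (hx n (hN.trans hn) ω hω)
    have : (N : ℝ) ≤ N' := by exact_mod_cast hN
    exact one_div_le_one_div_of_le (by positivity) (by linarith)
  have hle : ∀ (m : ℕ) (q : ℝ≥0∞), (∀ᶠ n in atTop, P n (B n m) ≤ q) → ∀ N, ν (C m N) ≤ q := by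
    intro m q hq N
    set O : Set E := ⋃ x ∈ C m N, Metric.ball x (1 / ((N : ℝ) + 1)) with hO
    have hOo : IsOpen O := isOpen_biUnion fun _ _ => Metric.isOpen_ball
    have hCO : C m N ⊆ O := fun x hx => mem_iUnion₂.2
      ⟨x, hx, Metric.mem_ball_self (by positivity)⟩
    have hl := ProbabilityMeasure.le_liminf_measure_open_of_tendsto hlimV hOo
    refine (measure_mono hCO).trans (hl.trans ?_)
    refine liminf_le_of_frequently_le' (Eventually.frequently ?_)
    filter_upwards [hq, eventually_ge_atTop N] with n hn hnN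
    refine le_trans ?_ hn
    have h1 : ((toPM ((P n).map (V n)) (hpV n) : ProbabilityMeasure E) : Measure E) O
        = P n (V n ⁻¹' O) := Measure.map_apply (hV n) hOo.measurableSet
    rw [h1]
    refine measure_mono fun ω hω => ?_
    by_contra hcon
    obtain ⟨x, hx, hxω⟩ := mem_iUnion₂.1 hω
    exact absurd (hx n hnN ω hcon) (not_le.2 hxω)
  have hnull : ν (⋂ m, ⋃ N, C m N) = 0 := by
    refine le_antisymm (le_of_forall_pos_le_add fun q hq => ?_) bot_le
    rw [zero_add]
    obtain ⟨m, hm⟩ := hB q hq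
    refine (measure_mono (iInter_subset _ m)).trans ?_
    rw [(hmono m).measure_iUnion]
    exact iSup_le fun N => hle m q hm N
  have hae : ∀ᵐ x ∂ν, x ∉ ⋂ m, ⋃ N, C m N := measure_eq_zero_iff_ae_notMem.1 hnull
  filter_upwards [hae] with x hx
  simp only [mem_iInter, not_forall] at hx
  obtain ⟨m, hm⟩ := hx
  simp only [mem_iUnion, not_exists] at hm
  have key : ∀ N : ℕ, ∃ n ≥ N, ∃ ω : Ω n, ω ∉ B n m ∧ dist (V n ω) x < 1 / ((N : ℝ) + 1) := by
    intro N
    by_contra hcon
    push Not at hcon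
    exact hm N fun n hn ω hω => hcon n hn ω hω
  have hfreq : ∀ j : ℕ, ∃ᶠ n in atTop, ∃ ω : Ω n, ω ∉ B n m ∧
      dist (V n ω) x < 1 / ((j : ℝ) + 1) := by
    intro j
    rw [frequently_atTop]
    intro N
    obtain ⟨n, hn, ω, h1, h2⟩ := key (max j N)
    refine ⟨n, (le_max_right _ _).trans hn, ω, h1, h2.trans_le ?_⟩
    have : (j : ℝ) ≤ ((max j N : ℕ) : ℝ) := by exact_mod_cast le_max_left j N
    exact one_div_le_one_div_of_le (by positivity) (by linarith)
  obtain ⟨k, hk, hkω⟩ := extraction_forall_of_frequently hfreq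
  choose ω hω1 hω2 using hkω
  refine ⟨m, k, hk, ω, hω1, ?_⟩
  rw [tendsto_iff_dist_tendsto_zero]
  exact squeeze_zero (fun _ => dist_nonneg) (fun j => (hω2 j).le)
    tendsto_one_div_add_atTop_nhds_zero_nat

end Vale.Agent.P167.SLE
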