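import Vale.Agent.P167.SLE.Det6B
import Vale.Agent.P153.R2.C1.Dist
import Vale.Agent.P153.R2.UNIQ.Cap

/-!
# P167, block ASM6: reparametrisation of the discrete data, the capacity parametrisation
-/

open Set Filter Topology Metric Vale.Agent.P164 Bornology
open scoped NNReal

namespace Vale.Agent.P167.SLE

open Vale.Agent.P153.R2 Vale.Agent.P153.R2.ARCX Vale.Agent.P153.R2.DET Vale.Agent.P153.R2.UNIQ
open Vale.Agent.P153.R2.C1

/-- a reparametrisation of the unit interval as a map of the real line -/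
noncomputable def ex (φ : unitInterval ≃o unitInterval) (t : ℝ) : ℝ := ((φ (pr t) : unitInterval) : ℝ)

theorem ex_coe (φ : unitInterval ≃o unitInterval) (t : unitInterval) :
    ex φ t = ((φ t : unitInterval) : ℝ) := by
  rw [ex, pr_coe]

theorem continuous_ex (φ : unitInterval ≃o unitInterval) : Continuous (ex φ) :=
  continuous_subtype_val.comp (φ.continuous.comp continuous_pr)

theorem pr_strict {s t : ℝ} (hs : 0 ≤ s) (hst : s < t) (ht : t ≤ 1) : pr s < pr t := by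
  rw [pr_of_mem s hs (hst.le.trans ht), pr_of_mem t (hs.trans hst.le) ht]
  exact hst

theorem ex_strict (φ : unitInterval ≃o unitInterval) {s t : ℝ} (hs : 0 ≤ s) (hst : s < t)
    (ht : t ≤ 1) : ex φ s < ex φ t := φ.strictMono (pr_strict hs hst ht)

theorem ex_mono (φ : unitInterval ≃o unitInterval) : Monotone (ex φ) := fun _ _ h =>
  φ.monotone (monotone_pr h)

theorem ex_nonneg (φ : unitInterval ≃o unitInterval) (t : ℝ) : 0 ≤ ex φ t := (φ (pr t)).2.1

theorem ex_zero (φ : unitInterval ≃o unitInterval) : ex φ 0 = 0 := by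
  have h : pr 0 = 0 := pr_of_mem 0 le_rfl zero_le_one
  rw [ex, h]
  have : φ 0 = 0 := φ.map_bot
  rw [this]
  rfl

/-- `ex φ` is onto on initial segments -/
theorem ex_image (φ : unitInterval ≃o unitInterval) {t : ℝ} (h0 : 0 ≤ t) :
    ex φ '' Icc 0 t = Icc 0 (ex φ t) := by
  ext v
  constructor
  · rintro ⟨s, hs, rfl⟩
    exact ⟨ex_nonneg φ s, ex_mono φ hs.2⟩
  · intro hv
    have h1 := intermediate_value_Icc h0 (continuous_ex φ).continuousOn
    rw [ex_zero] at h1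
    exact h1 hv

/-- the discrete data under reparametrisation -/
theorem Disc.comp {ψ : ℂ → ℂ} {b : ℂ} {X : C(unitInterval, ℂ)} {x : ℝ → ℂ} {c : ℝ → ℝ}
    {w : C(ℝ≥0, ℝ)} {T₀ T₁ ε : ℝ} (h : Disc ψ b X x c w T₀ T₁ ε)
    (φ : unitInterval ≃o unitInterval) :
    Disc ψ b (reparam X φ) (fun t => x (ex φ t)) (fun t => c (ex φ t)) w
      ((φ.symm (pr T₀) : unitInterval) : ℝ) ((φ.symm (pr T₁) : unitInterval) : ℝ) ε := by
  have hT0 : T₀ ≤ 1 := h.lt.le.trans h.le
  have hT1 : 0 ≤ T₁ := h.pos.le.trans h.lt.le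
  set S₁ : ℝ := ((φ.symm (pr T₁) : unitInterval) : ℝ) with hS1
  have hS1' : S₁ ≤ 1 := (φ.symm (pr T₁)).2.2
  have hS0 : (0 : ℝ) < ((φ.symm (pr T₀) : unitInterval) : ℝ) := by
    have h1 : pr 0 < pr T₀ := pr_strict le_rfl h.pos hT0
    have h2 : φ.symm (pr 0) < φ.symm (pr T₀) := φ.symm.strictMono h1
    exact lt_of_le_of_lt (φ.symm (pr 0)).2.1 h2
  have hS01 : ((φ.symm (pr T₀) : unitInterval) : ℝ) < S₁ :=
    φ.symm.strictMono (pr_strict h.pos.le h.lt h.le)
  have hmaps : ∀ t ∈ Ico 0 S₁, ex φ t ∈ Ico 0 T₁ := by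
    intro t ht
    refine ⟨ex_nonneg φ t, ?_⟩
    have h1 : ex φ t < ex φ S₁ := ex_strict φ ht.1 ht.2 hS1'
    rwa [hS1, ex_coe, φ.apply_symm_apply, pr_of_mem T₁ hT1 h.le] at h1
  have hlt : ∀ t : unitInterval, (t : ℝ) < S₁ → ((φ t : unitInterval) : ℝ) < T₁ := by
    intro t ht
    have := (hmaps t ⟨t.2.1, ht⟩).2
    rwa [ex_coe] at this
  refine ⟨hS0, hS01, hS1', fun t ht => h.im_nonneg _ (hmaps t ht), ?_, ?_, ?_⟩
  · intro t ht
    have h1 := h.map (φ t) (hlt t ht)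
    rw [reparam_apply, ← h1, ex_coe]
  · have hs := h.sgen
    refine ⟨hS0.trans hS01, hs.cont.comp (continuous_ex φ).continuousOn hmaps, ?_, ?_, ?_,
      hs.contc.comp (continuous_ex φ).continuousOn hmaps, ?_, ?_, ?_⟩
    · intro s hs' t ht' hst
      have h1 := hs.inj (hmaps s hs') (hmaps t ht') hst
      rcases lt_trichotomy s t with h2 | h2 | h2
      · exact absurd h1 (ex_strict φ hs'.1 h2 (ht'.2.le.trans hS1')).ne
      · exact h2
      · exact absurd h1.symm (ex_strict φ ht'.1 h2 (hs'.2.le.trans hS1')).ne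
    · intro t ht
      refine hs.im_pos _ ⟨?_, (hmaps t ⟨ht.1.le, ht.2⟩).2⟩
      have := ex_strict φ le_rfl ht.1 (ht.2.le.trans hS1')
      rwa [ex_zero] at this
    · show x (ex φ 0) = _
      rw [ex_zero, hs.start]
    · intro s hs' t ht' hst
      exact hs.mono (hmaps s hs') (hmaps t ht') (ex_strict φ hs'.1 hst (ht'.2.le.trans hS1'))
    · show c (ex φ 0) = 0
      rw [ex_zero, hs.c_zero]
    · intro t ht
      rw [hs.dom _ (hmaps t ht), ← ex_image φ ht.1, ← image_comp]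
      rfl
  · intro t ht
    refine h.near (φ t) ?_
    have h1 : φ.symm (pr T₀) ≤ t := ht
    have h2 := φ.monotone h1
    rw [φ.apply_symm_apply, pr_of_mem T₀ h.pos.le hT0] at h2
    exact h2

/-- `G` is the capacity parametrisation of the image under `ψ` of the trace driven by `w` -/
def CapG (ψ : ℂ → ℂ) (b : ℂ) (w : C(ℝ≥0, ℝ)) (G : C(unitInterval, ℂ)) : Prop :=
  ∃ γ : ℝ → ℂ, IsTrace (fun t => w t.toNNReal) γ ∧ G 1 = b ∧
    ∀ t : unitInterval, (t : ℝ) < 1 → G t = ψ (γ (t / (1 - t)))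

theorem CapG.unique {ψ : ℂ → ℂ} {b : ℂ} {w : C(ℝ≥0, ℝ)} {G G' : C(unitInterval, ℂ)}
    (h : CapG ψ b w G) (h' : CapG ψ b w G') : G = G' := by
  obtain ⟨γ, hγ, h1, h2⟩ := h
  obtain ⟨γ', hγ', h1', h2'⟩ := h'
  ext t
  by_cases ht : (t : ℝ) < 1
  · rw [h2 t ht, h2' t ht]
    have h3 : (0 : ℝ) ≤ t / (1 - t) := div_nonneg t.2.1 (by linarith)
    rw [isTrace_unique (w.continuous.comp continuous_real_toNNReal) hγ hγ' h3]
  · have h3 : t = 1 := Subtype.ext (le_antisymm t.2.2 (not_lt.1 ht))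
    rw [h3, h1, h1']

end Vale.Agent.P167.SLE
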