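import Vale.Agent.P167.SLE.Step6

/-!
# P167, block DISC6: `UNIQ.Disc` for polygonal curves
-/

open MeasureTheory ProbabilityTheory Filter Topology Set
open scoped NNReal ENNReal

namespace Vale.Agent.P167.SLE

open Vale.Agent.P153 Vale.Agent.P153.R2 Vale.Agent.P153.R2.DET Vale.Agent.P153.R2.UNIQ
open Vale.Agent.P153.R2.ARCX (SGen)
open Vale.Agent.P153.R2.L2 (Crv gg cc ww drv tau)
open Vale.Agent.P153.R2.L2.Crv (drvT)
open Vale.Agent.P167.E2 (lin lin_eq lin_nat lin_zero continuous_lin lin_lip)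

theorem sgen_reparam {W : ℝ → ℝ} {η : ℝ → ℂ} {c : ℝ → ℝ} {T₁ T : ℝ} (h : SGen W η c T₁)
    {σ : ℝ → ℝ} (hT : 0 < T) (hc : ContinuousOn σ (Icc 0 T)) (hm : StrictMonoOn σ (Icc 0 T))
    (h0 : σ 0 = 0) (h1 : σ T = T₁) : SGen W (fun t => η (σ t)) (fun t => c (σ t)) T := by
  have hmaps : MapsTo σ (Ico 0 T) (Ico 0 T₁) := by
    intro t ht
    refine ⟨?_, ?_⟩
    · rw [← h0]
      exact hm.monotoneOn ⟨le_rfl, hT.le⟩ ⟨ht.1, ht.2.le⟩ ht.1
    · rw [← h1]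
      exact hm ⟨ht.1, ht.2.le⟩ ⟨hT.le, le_rfl⟩ ht.2
  have hc' : ContinuousOn σ (Ico 0 T) := hc.mono Ico_subset_Icc_self
  have hm' : StrictMonoOn σ (Ico 0 T) := hm.mono Ico_subset_Icc_self
  refine ⟨hT, h.cont.comp hc' hmaps, h.inj.comp hm'.injOn hmaps, fun t ht => ?_, ?_,
    h.contc.comp hc' hmaps, fun s hs t ht hst => h.mono (hmaps hs) (hmaps ht) (hm' hs ht hst),
    ?_, fun t ht => ?_⟩
  · refine h.im_pos _ ⟨?_, (hmaps ⟨ht.1.le, ht.2⟩).2⟩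
    rw [← h0]
    exact hm ⟨le_rfl, hT.le⟩ ⟨ht.1.le, ht.2.le⟩ ht.1
  · change η (σ 0) = _
    rw [h0]
    exact h.start
  · change c (σ 0) = 0
    rw [h0]
    exact h.c_zero
  · change Vale.Agent.P164.loewnerDomain W (c (σ t)) = _
    rw [h.dom _ (hmaps ht)]
    congr 1
    ext z
    constructor
    · rintro ⟨s, hs, rfl⟩
      have h2 : Icc (σ 0) (σ t) ⊆ σ '' Icc 0 t :=
        intermediate_value_Icc ht.1 (hc'.mono fun u hu => ⟨hu.1, hu.2.trans_lt ht.2⟩)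
      rw [h0] at h2
      obtain ⟨u, hu, rfl⟩ := h2 hs
      exact ⟨u, hu, rfl⟩
    · rintro ⟨u, hu, rfl⟩
      have hu' : u ∈ Icc 0 T := ⟨hu.1, hu.2.trans ht.2.le⟩
      refine ⟨σ u, ⟨?_, hm.monotoneOn hu' ⟨ht.1, ht.2.le⟩ hu.2⟩, rfl⟩
      rw [← h0]
      exact hm.monotoneOn ⟨le_rfl, hT.le⟩ hu' hu.1

/-- The polygonal curve, parametrised by `[0, 1]`. -/
noncomputable def lc (q : ℕ → ℂ) (ν : ℕ) : C(unitInterval, ℂ) :=
  ⟨fun t => lin q ((t : ℝ) * ν), (continuous_lin q).comp (by fun_prop)⟩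

/-- The curve in the half-plane, parametrised by `[0, 1]`. -/
noncomputable def xs6 (ψ : ℂ → ℂ) (q : ℕ → ℂ) (ν : ℕ) (t : ℝ) : ℂ := et6 ψ q (t * ν)

/-- Its capacity. -/
noncomputable def cs6 (ψ : ℂ → ℂ) (q : ℕ → ℂ) (ν : ℕ) (t : ℝ) : ℝ := cp6 ψ q (t * ν)

/-- The time `(ν - 3/4) / ν`. -/
noncomputable def tA (ν : ℕ) : ℝ := (ν - 3 / 4) / ν

/-- The time `(ν - 1/2) / ν` at which the driver is frozen. -/
noncomputable def tB (ν : ℕ) : ℝ := (ν - 1 / 2) / ν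

section

variable {ψ : ℂ → ℂ} {b : ℂ} {q : ℕ → ℂ} {ν : ℕ} {δ : ℝ}

theorem tA_mul (h : 0 < ν) : tA ν * ν = ν - 3 / 4 := by
  have : (0 : ℝ) < ν := by exact_mod_cast h
  unfold tA
  field_simp

theorem tB_mul (h : 0 < ν) : tB ν * ν = ν - 1 / 2 := by
  have : (0 : ℝ) < ν := by exact_mod_cast h
  unfold tB
  field_simp

theorem tA_pos (h : 0 < ν) : 0 < tA ν := by
  have : (1 : ℝ) ≤ ν := by exact_mod_cast h
  exact div_pos (by linarith) (by linarith)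

theorem tA_lt (h : 0 < ν) : tA ν < tB ν := by
  have : (1 : ℝ) ≤ ν := by exact_mod_cast h
  exact div_lt_div_of_pos_right (by linarith) (by linarith)

theorem tB_lt (h : 0 < ν) : tB ν < 1 := by
  have : (1 : ℝ) ≤ ν := by exact_mod_cast h
  unfold tB
  rw [div_lt_one (by linarith)]
  linarith

theorem tB_pos (h : 0 < ν) : 0 < tB ν := (tA_pos h).trans (tA_lt h)

/-- **The curve, its image in the half-plane and its driver.** -/
theorem disc6 (hU : Uni ψ b) (hg : PC ψ b q ν δ) :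
    Disc ψ b (lc q ν) (xs6 ψ q ν) (cs6 ψ q ν) (wf6 ψ q ν) (tA ν) (tB ν) δ := by
  have hn := hg.pos
  have hcr : Crv (et6 ψ q) ν := crv6 hU hg
  have hν : (1 : ℝ) ≤ ν := by exact_mod_cast hn
  have hν0 : (0 : ℝ) < ν := by linarith
  have hmem : ∀ t ∈ Ico (0 : ℝ) (tB ν), 0 ≤ t * ν ∧ t * ν < ν := by
    intro t ht
    refine ⟨mul_nonneg ht.1 hν0.le, ?_⟩
    have h1 : t * ν < tB ν * ν := mul_lt_mul_of_pos_right ht.2 hν0
    rw [tB_mul hn] at h1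
    linarith
  constructor
  · exact tA_pos hn
  · exact tA_lt hn
  · exact (tB_lt hn).le
  · intro t ht
    exact et_mem hg (hmem t ht).1 (hmem t ht).2
  · intro t ht
    obtain ⟨h1, h2⟩ := hmem t ⟨t.2.1, ht⟩
    exact psi_et hg h1 h2
  · rw [wf_toNNReal hcr hn]
    have h1 := (hcr.sgen_local (t₁ := ν - 1 / 2) ⟨by linarith, by linarith⟩).2
    refine sgen_reparam h1 (σ := fun t => t * ν) (tB_pos hn) (by fun_prop) ?_ (by simp)
      (tB_mul hn)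
    intro s _ t _ hst
    exact mul_lt_mul_of_pos_right hst hν0
  · intro t ht
    change dist (lin q ((t : ℝ) * ν)) b ≤ δ
    have h1 : tA ν * ν ≤ (t : ℝ) * ν := mul_le_mul_of_nonneg_right ht hν0.le
    rw [tA_mul hn] at h1
    have h2 : (t : ℝ) * ν ≤ ν := mul_le_of_le_one_left hν0.le t.2.2
    rw [dist_comm, ← hg.fin, ← lin_nat q ν]
    exact hg.dist_le (by linarith) h2 le_rfl (by linarith)

end

end Vale.Agent.P167.SLE
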