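import Vale.Agent.P153.R2.STEP.Main
import Vale.Agent.P153.R2.HULL.Bounds
import Vale.Agent.P153.R2.L2.Driver
import Vale.Agent.P153.R2.UNIQ.Inputs
import Vale.Agent.P153.R2.DET.Defs
import Vale.Agent.P167.E2.Lin

/-!
# P167, block DISC6: polygonal curves and their images in the half-plane

Lattice-free version of `P153/R2/DRV/{Curve,Expl}` for polygonal curves `lin q` with the vertices
`q 0, …, q ν`.
-/

open MeasureTheory ProbabilityTheory Filter Topology Set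
open scoped NNReal ENNReal

namespace Vale.Agent.P167.SLE

open Vale.Agent.P153.R2 Vale.Agent.P153.R2.DET
open Vale.Agent.P153.R2.L2 (Crv gg cc ww drv tau)
open Vale.Agent.P153.R2.L2.Crv (drvT)
open Vale.Agent.P164 (loewnerDomain)
open Vale.Agent.P167.E2 (lin lin_eq lin_nat lin_zero continuous_lin lin_lip)

/-! ### The inverse of a uniformizer -/

theorem inv_cont6 {ψ : ℂ → ℂ} {b : ℂ} (hU : Uni ψ b) :
    ContinuousOn (Function.invFunOn ψ HC) (ψ '' HC) := by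
  have hA : IsClosed HC := isClosed_le continuous_const Complex.continuous_im
  rintro _ ⟨z, hz, rfl⟩
  have hinv : ∀ y ∈ ψ '' HC, Function.invFunOn ψ HC y ∈ HC ∧ ψ (Function.invFunOn ψ HC y) = y := by
    intro y hy
    exact ⟨Function.invFunOn_mem hy, Function.invFunOn_eq hy⟩
  have hz' : Function.invFunOn ψ HC (ψ z) = z := by
    obtain ⟨h1, h2⟩ := hinv _ (mem_image_of_mem ψ hz)
    exact hU.inj h1 hz h2
  unfold ContinuousWithinAt
  rw [hz', tendsto_iff_ultrafilter]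
  intro g hg
  set u := g.map (Function.invFunOn ψ HC) with hu
  have hgA : ψ '' HC ∈ (g : Filter ℂ) := hg self_mem_nhdsWithin
  have huA : HC ∈ (u : Filter ℂ) := by
    rw [hu, Ultrafilter.coe_map, Filter.mem_map]
    filter_upwards [hgA] with y hy using (hinv y hy).1
  have hψu : Tendsto ψ (u : Filter ℂ) (𝓝 (ψ z)) := by
    rw [hu, Ultrafilter.coe_map, Filter.tendsto_map'_iff]
    have h1 : Tendsto (fun y : ℂ => y) (g : Filter ℂ) (𝓝 (ψ z)) :=
      hg.trans nhdsWithin_le_nhds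
    refine h1.congr' ?_
    filter_upwards [hgA] with y hy using (hinv y hy).2.symm
  change (u : Filter ℂ) ≤ 𝓝 z
  by_cases hb : ∃ M : ℝ, Metric.closedBall (0 : ℂ) M ∈ (u : Filter ℂ)
  · obtain ⟨M, hM⟩ := hb
    have hcpt : IsCompact (Metric.closedBall (0 : ℂ) M ∩ HC) :=
      (isCompact_closedBall 0 M).inter_right hA
    obtain ⟨z', hz'1, hz'2⟩ := hcpt.ultrafilter_le_nhds u (le_principal_iff.2 (inter_mem hM huA))
    have h1 : Tendsto ψ (u : Filter ℂ) (𝓝 (ψ z')) := by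
      have h2 : (u : Filter ℂ) ≤ 𝓝[HC] z' := by
        rw [nhdsWithin]
        exact le_inf hz'2 (le_principal_iff.2 huA)
      exact (hU.cont z' hz'1.2).mono_left h2
    have h2 := tendsto_nhds_unique h1 hψu
    rw [← hU.inj hz'1.2 hz h2]
    exact hz'2
  · push Not at hb
    exfalso
    have h1 : (u : Filter ℂ) ≤ Bornology.cobounded ℂ := by
      intro s hs
      rw [← compl_compl s] at hs ⊢
      have h2 : Bornology.IsBounded sᶜ := by
        rw [Bornology.isBounded_def]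
        exact hs
      obtain ⟨M, hM⟩ := h2.subset_closedBall 0
      have h3 := hb M
      rw [Ultrafilter.mem_coe, ← Ultrafilter.compl_mem_iff_notMem] at h3
      exact mem_of_superset h3 (compl_subset_compl.2 hM)
    have h2 : Tendsto ψ (u : Filter ℂ) (𝓝 b) :=
      hU.inf.mono_left (le_inf h1 (le_principal_iff.2 huA))
    exact hU.ne z hz (tendsto_nhds_unique hψu h2)

/-! ### The driver along a simple curve -/

section Crv

variable {γ γ' : ℝ → ℂ} {T T' : ℝ}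

theorem drvT_cc (h : Crv γ T) {t t₁ : ℝ} (h0 : 0 ≤ t) (ht : t ≤ t₁) (ht₁ : t₁ < T) :
    drvT γ T t₁ (cc γ t) = ww γ t := by
  have htT : t ∈ Ico 0 T := ⟨h0, ht.trans_lt ht₁⟩
  rw [L2.Crv.drvT_eq (h.cap_nonneg htT)
    (h.strictMono.monotoneOn htT ⟨h0.trans ht, ht₁⟩ ht), h.drv_cc htT]

theorem ww_cont (h : Crv γ T) : ContinuousOn (ww γ) (Ico 0 T) := by
  intro t ht
  set t₂ := (t + T) / 2 with ht₂
  have h1 : t < t₂ := by rw [ht₂]; linarith [ht.2]
  have h2 : t₂ < T := by rw [ht₂]; linarith [ht.2]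
  have h3 : ContinuousOn (ww γ) (Icc 0 t₂) := by
    have h4 : ContinuousOn (fun s => drvT γ T t₂ (cc γ s)) (Icc 0 t₂) :=
      (h.continuous_drvT ⟨ht.1.trans h1.le, h2⟩).comp_continuousOn
        (h.cap_cont.mono fun s hs => ⟨hs.1, hs.2.trans_lt h2⟩)
    exact h4.congr fun s hs => (drvT_cc h hs.1 hs.2 h2).symm
  refine (h3 t ⟨ht.1, h1.le⟩).mono_of_mem_nhdsWithin ?_
  rw [mem_nhdsWithin]
  exact ⟨Iio t₂, isOpen_Iio, h1, fun s hs => ⟨hs.2.1, hs.1.le⟩⟩

theorem ww_zero (h : Crv γ T) : (ww γ 0 : ℂ) = γ 0 := by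
  rw [← h.drv_zero]
  have := h.drv_cc (t := 0) ⟨le_rfl, h.pos⟩
  rw [h.cap_zero] at this
  rw [this]

theorem gg_congr {t : ℝ} (he : ∀ s ∈ Icc 0 t, γ' s = γ s) : gg γ' t = gg γ t := by
  have h1 : γ' '' Icc 0 t = γ '' Icc 0 t := image_congr he
  unfold L2.gg
  rw [h1]

theorem cc_congr {t : ℝ} (he : ∀ s ∈ Icc 0 t, γ' s = γ s) : cc γ' t = cc γ t := by
  unfold L2.cc
  rw [gg_congr he]

theorem ww_congr_lt {s t : ℝ} (hst : s < t) (he : ∀ u ∈ Icc 0 t, γ' u = γ u) (hs : 0 ≤ s) :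
    ww γ' s = ww γ s := by
  unfold L2.ww
  rw [gg_congr fun u hu => he u ⟨hu.1, hu.2.trans hst.le⟩]
  congr 1
  unfold limUnder
  congr 1
  refine Filter.map_congr ?_
  filter_upwards [Ioo_mem_nhdsGT hst] with u hu
  rw [he u ⟨hs.trans hu.1.le, hu.2.le⟩]

/-- The driver depends only on the past. -/
theorem ww_congr (h : Crv γ T) (h' : Crv γ' T') {t : ℝ} (h0 : 0 ≤ t) (ht : t < T) (ht' : t < T')
    (he : ∀ u ∈ Icc 0 t, γ' u = γ u) : ww γ' t = ww γ t := by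
  rcases h0.eq_or_lt with h0 | h0
  · have h1 := ww_zero h
    have h2 := ww_zero h'
    rw [← h0]
    have h3 := he 0 ⟨le_rfl, h0.le⟩
    rw [h3, ← h1] at h2
    exact_mod_cast h2
  · have hne : (𝓝[<] t).NeBot := inferInstance
    have a1 : Tendsto (ww γ) (𝓝[<] t) (𝓝 (ww γ t)) := by
      refine (ww_cont h t ⟨h0.le, ht⟩).mono_left ?_
      rw [← nhdsWithin_Ioo_eq_nhdsLT h0]
      exact nhdsWithin_mono _ fun s hs => ⟨hs.1.le, hs.2.trans ht⟩
    have a2 : Tendsto (ww γ') (𝓝[<] t) (𝓝 (ww γ' t)) := by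
      refine (ww_cont h' t ⟨h0.le, ht'⟩).mono_left ?_
      rw [← nhdsWithin_Ioo_eq_nhdsLT h0]
      exact nhdsWithin_mono _ fun s hs => ⟨hs.1.le, hs.2.trans ht'⟩
    refine tendsto_nhds_unique (a2.congr' ?_) a1
    filter_upwards [Ioo_mem_nhdsLT h0] with s hs
    exact ww_congr_lt hs.2 he hs.1.le

/-- The curve is bounded in terms of the capacity and the driver. -/
theorem curve_bd {γ : ℝ → ℂ} {T : ℝ} (h : Crv γ T) {t M : ℝ} (h0 : 0 ≤ t) (ht : t < T)
    (hM : ∀ s ∈ Icc 0 t, |ww γ s| ≤ M) (hγ : γ 0 = 0) : ‖γ t‖ ≤ M + 3 * √(cc γ t) := by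
  have hM0 : 0 ≤ M := (abs_nonneg _).trans (hM 0 ⟨le_rfl, h0⟩)
  rcases h0.eq_or_lt with h1 | h1
  · rw [← h1, hγ, norm_zero]
    positivity
  · by_contra hc
    push Not at hc
    have htT : t ∈ Ico 0 T := ⟨h0, ht⟩
    have hcc : 0 < cc γ t := by
      have := h.cap_strict le_rfl h1 ht
      rwa [h.cap_zero] at this
    have h2 := HULL.far_alive (W := drvT γ T t) (h.continuous_drvT htT) hcc (M := M) (fun u hu => by
      obtain ⟨s, hs, hsu⟩ := h.Icc_sub htT hu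
      rw [← hsu, drvT_cc h hs.1 hs.2 ht]
      exact hM s hs) (h.im_pos t ⟨h1, ht⟩) hc
    have h3 := h2.1
    rw [L2.loewnerDomain_congr (W' := drv γ T) (fun s hs => L2.Crv.drvT_eq hs.1 hs.2),
      h.dom htT] at h3
    exact h3.2 ⟨t, ⟨h0, le_rfl⟩, rfl⟩

end Crv

/-! ### Polygonal curves -/

/-- `lin q` on `[0, ν]` is a simple curve with steps of size at most `δ` in the domain of the
uniformizer `ψ`, from `ψ 0` to `b`. -/
structure PC (ψ : ℂ → ℂ) (b : ℂ) (q : ℕ → ℂ) (ν : ℕ) (δ : ℝ) : Prop where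
  pos : 0 < ν
  start : q 0 = ψ 0
  fin : q ν = b
  inj : InjOn (lin q) (Icc 0 (ν : ℝ))
  inter : ∀ t ∈ Ioo 0 (ν : ℝ), lin q t ∈ ψ '' {z | 0 < z.im}
  near : ∀ j < ν, ‖q (j + 1) - q j‖ ≤ δ

/-- The curve in the half-plane. -/
noncomputable def et6 (ψ : ℂ → ℂ) (q : ℕ → ℂ) (t : ℝ) : ℂ := Function.invFunOn ψ HC (lin q t)

/-- The capacity of the curve. -/
noncomputable def cp6 (ψ : ℂ → ℂ) (q : ℕ → ℂ) (t : ℝ) : ℝ := cc (et6 ψ q) t

/-- The driver along the curve. -/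
noncomputable def wd6 (ψ : ℂ → ℂ) (q : ℕ → ℂ) (t : ℝ) : ℝ := ww (et6 ψ q) t

theorem lin_congr {q q' : ℕ → ℂ} {m : ℕ} (h : ∀ j ≤ m, q' j = q j) {t : ℝ} (h0 : 0 ≤ t)
    (ht : t ≤ m) : lin q' t = lin q t := by
  rcases ht.lt_or_eq with h1 | h1
  · have h2 : ⌊t⌋₊ < m := (Nat.floor_lt h0).2 h1
    unfold lin
    rw [h _ h2.le, h _ h2]
  · rw [h1, lin_nat, lin_nat, h m le_rfl]

section

variable {ψ : ℂ → ℂ} {b : ℂ} {q : ℕ → ℂ} {ν : ℕ} {δ : ℝ}

theorem PC.nonneg (h : PC ψ b q ν δ) : 0 ≤ δ := (norm_nonneg _).trans (h.near 0 h.pos)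

/-- Points of the curve between two vertices. -/
theorem PC.dist_le (h : PC ψ b q ν δ) {s t : ℝ} (h0 : 0 ≤ s) (hst : s ≤ t) (ht : t ≤ ν)
    (h1 : t - s ≤ 1) : dist (lin q t) (lin q s) ≤ δ := by
  rw [dist_eq_norm]
  refine (lin_lip h.near h0 hst ht).trans ?_
  have := h.nonneg
  nlinarith

variable (hU : Uni ψ b) (hg : PC ψ b q ν δ)

include hg in
/-- The curve stays in the image of the closed half-plane before the end. -/
theorem pl_mem {t : ℝ} (h0 : 0 ≤ t) (ht : t < ν) : lin q t ∈ ψ '' HC := by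
  rcases h0.eq_or_lt with h1 | h1
  · rw [← h1, lin_zero, hg.start]
    exact mem_image_of_mem _ (by simp [HC])
  · obtain ⟨z, hz, hzt⟩ := hg.inter t ⟨h1, ht⟩
    have hz' : (0 : ℝ) < z.im := hz
    exact ⟨z, hz'.le, hzt⟩

include hg in
theorem et_mem {t : ℝ} (h0 : 0 ≤ t) (ht : t < ν) : et6 ψ q t ∈ HC :=
  Function.invFunOn_mem (pl_mem hg h0 ht)

include hg in
theorem psi_et {t : ℝ} (h0 : 0 ≤ t) (ht : t < ν) : ψ (et6 ψ q t) = lin q t :=
  Function.invFunOn_eq (pl_mem hg h0 ht)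

include hU hg

theorem et_zero : et6 ψ q 0 = 0 := by
  have hpos : (0 : ℝ) < ν := by exact_mod_cast hg.pos
  have h1 := psi_et hg le_rfl hpos
  rw [lin_zero, hg.start] at h1
  exact hU.inj (et_mem hg le_rfl hpos) (by simp [HC]) h1

theorem et_im {t : ℝ} (h0 : 0 < t) (ht : t < ν) : 0 < (et6 ψ q t).im := by
  obtain ⟨z, hz, hzt⟩ := hg.inter t ⟨h0, ht⟩
  have hz' : (0 : ℝ) < z.im := hz
  have h1 := psi_et hg h0.le ht
  rw [← hzt] at h1
  rw [hU.inj (et_mem hg h0.le ht) hz'.le h1]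
  exact hz'

theorem et_cont : ContinuousOn (et6 ψ q) (Ico 0 (ν : ℝ)) :=
  (inv_cont6 hU).comp (continuous_lin q).continuousOn fun _ ht => pl_mem hg ht.1 ht.2

omit hU in
theorem et_inj : InjOn (et6 ψ q) (Ico 0 (ν : ℝ)) := by
  intro s hs t ht he
  have h1 := psi_et hg hs.1 hs.2
  have h2 := psi_et hg ht.1 ht.2
  rw [he, h2] at h1
  exact (hg.inj ⟨ht.1, ht.2.le⟩ ⟨hs.1, hs.2.le⟩ h1).symm

/-- **The curve in the half-plane is a simple curve.** -/
theorem crv6 : Crv (et6 ψ q) ν where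
  pos := by exact_mod_cast hg.pos
  cont := et_cont hU hg
  inj := et_inj hg
  start := by rw [et_zero hU hg, Complex.zero_im]
  im_pos := fun _ ht => et_im hU hg ht.1 ht.2

end

end Vale.Agent.P167.SLE
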