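import Vale.Agent.P167.SLE.Drv6
import Vale.Agent.P167.M1.Fin

/-!
# P167, block DISC6: polygonal curves as finite explorations
-/

open MeasureTheory ProbabilityTheory Filter Topology Set
open scoped NNReal ENNReal

namespace Vale.Agent.P167.SLE

open Vale.Agent.P153 Vale.Agent.P153.R2 Vale.Agent.P153.R2.DET
open Vale.Agent.P153.R2.L2 (Crv gg cc ww drv tau)
open Vale.Agent.P153.R2.L2.Crv (drvT)
open Vale.Agent.P164 (loewnerDomain)
open Vale.Agent.P167.E2 (lin lin_eq lin_nat lin_zero continuous_lin lin_lip)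

/-- The parameter time of step `j` (the last step is cut in the middle). -/
noncomputable def sj6 (ν : ℕ) (j : ℕ) : ℝ := min (j : ℝ) (ν - 1 / 2)

open Classical in
/-- The driver, frozen in the middle of the last step. -/
noncomputable def wf6 (ψ : ℂ → ℂ) (q : ℕ → ℂ) (ν : ℕ) : C(ℝ≥0, ℝ) :=
  if h : Continuous (drvT (et6 ψ q) ν (ν - 1 / 2)) then
    ⟨fun u => drvT (et6 ψ q) ν (ν - 1 / 2) u, h.comp NNReal.continuous_coe⟩
  else 0

/-- The exploration of a family of polygonal curves: the outcomes are `A ∈ C`, the polygon has the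
vertices `q A 0, …, q A (ν A)`. -/
noncomputable def ex6 {O : Type*} (ψ : ℂ → ℂ) (C : Set O) (q : O → ℕ → ℂ) (ν : O → ℕ) :
    M1.Expl O ℂ where
  C := C
  r := q
  K := ν
  c := fun g j => cp6 ψ (q g) (sj6 (ν g) j)
  w := fun g => wf6 ψ (q g) (ν g)

section

variable {ψ : ℂ → ℂ} {b : ℂ} {q q' : ℕ → ℂ} {ν ν' : ℕ} {δ : ℝ}

theorem sj_lt {j : ℕ} (h : j < ν) : sj6 ν j = j := by
  refine min_eq_left ?_
  have : (j : ℝ) + 1 ≤ ν := by exact_mod_cast h
  linarith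

theorem sj_nu : sj6 ν ν = ν - 1 / 2 := min_eq_right (by linarith)

theorem sj_le (j : ℕ) : sj6 ν j ≤ ν - 1 / 2 := min_le_right _ _

theorem sj_le' (j : ℕ) : sj6 ν j ≤ j := min_le_left _ _

theorem half_mem (h : 0 < ν) : (ν - 1 / 2 : ℝ) ∈ Ico 0 (ν : ℝ) := by
  have : (1 : ℝ) ≤ ν := by exact_mod_cast h
  exact ⟨by linarith, by linarith⟩

theorem sj_mem (h : 0 < ν) (j : ℕ) : sj6 ν j ∈ Ico 0 (ν : ℝ) :=
  ⟨le_min (Nat.cast_nonneg j) (half_mem h).1, (sj_le j).trans_lt (half_mem h).2⟩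

theorem sj_mono {i j : ℕ} (h : i ≤ j) : sj6 ν i ≤ sj6 ν j :=
  min_le_min (by exact_mod_cast h) le_rfl

theorem wf_eq (hc : Crv (et6 ψ q) ν) (hn : 0 < ν) (u : ℝ≥0) :
    wf6 ψ q ν u = drvT (et6 ψ q) ν (ν - 1 / 2) u := by
  have h : Continuous (drvT (et6 ψ q) ν (ν - 1 / 2)) := hc.continuous_drvT (half_mem hn)
  unfold wf6
  rw [dif_pos h]
  rfl

/-- The value of the driver at the capacity time of `t`. -/
theorem wf_cc (hc : Crv (et6 ψ q) ν) (hn : 0 < ν) {t : ℝ} (h0 : 0 ≤ t)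
    (ht : t ≤ ν - 1 / 2) : wf6 ψ q ν (cp6 ψ q t).toNNReal = wd6 ψ q t := by
  have htT : t ∈ Ico 0 (ν : ℝ) := ⟨h0, ht.trans_lt (half_mem hn).2⟩
  have h1 : 0 ≤ cp6 ψ q t := hc.cap_nonneg htT
  rw [wf_eq hc hn, Real.coe_toNNReal _ h1]
  exact drvT_cc hc h0 ht (half_mem hn).2

/-- The driver as a function on the line. -/
theorem wf_toNNReal (hc : Crv (et6 ψ q) ν) (hn : 0 < ν) :
    (fun t : ℝ => wf6 ψ q ν t.toNNReal) = drvT (et6 ψ q) ν (ν - 1 / 2) := by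
  funext t
  rw [wf_eq hc hn, Real.coe_toNNReal']
  unfold L2.Crv.drvT
  rw [max_eq_left (le_max_right t 0)]

theorem et_congr {m : ℕ} (h : ∀ j ≤ m, q' j = q j) {t : ℝ} (h0 : 0 ≤ t)
    (ht : t ≤ m) : et6 ψ q' t = et6 ψ q t := by
  unfold et6
  rw [lin_congr h h0 ht]

/-- The number of steps is determined by the path. -/
theorem nu_stop (h : PC ψ b q ν δ) (h' : PC ψ b q' ν' δ) (he : ∀ j ≤ ν, q' j = q j) :
    ν' = ν := by
  by_contra hne
  rcases Nat.lt_or_gt_of_ne hne with h1 | h1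
  · -- `ν' < ν`
    have e1 : lin q ν' = lin q ν := by
      rw [lin_nat, lin_nat, h.fin, ← he ν' h1.le, h'.fin]
    have e2 := h.inj ⟨Nat.cast_nonneg _, by exact_mod_cast h1.le⟩
      ⟨Nat.cast_nonneg _, le_rfl⟩ e1
    have e3 : ν' = ν := by exact_mod_cast e2
    exact hne e3
  · have e1 : lin q' ν = lin q' ν' := by
      rw [lin_nat, lin_nat, h'.fin, he ν le_rfl, h.fin]
    have e2 := h'.inj ⟨Nat.cast_nonneg _, by exact_mod_cast h1.le⟩
      ⟨Nat.cast_nonneg _, le_rfl⟩ e1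
    have e3 : ν = ν' := by exact_mod_cast e2
    exact hne e3.symm

end

section

variable {O : Type*} {ψ : ℂ → ℂ} {b : ℂ} {C : Set O} {q : O → ℕ → ℂ} {ν : O → ℕ} {δ : ℝ}
  {g g' : O}

theorem V_eq (hc : Crv (et6 ψ (q g)) (ν g)) (hn : 0 < ν g) (j : ℕ) :
    (ex6 ψ C q ν).V g j = wd6 ψ (q g) (sj6 (ν g) j) :=
  wf_cc hc hn (sj_mem hn j).1 (sj_le j)

theorem ex_adc (hc : Crv (et6 ψ (q g)) (ν g)) (hc' : Crv (et6 ψ (q g')) (ν g'))
    (hn : 0 < ν g) (hn' : 0 < ν g') {j : ℕ} (h : ∀ i ≤ j, q g' i = q g i)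
    (hsj : sj6 (ν g') j = sj6 (ν g) j) :
    (ex6 ψ C q ν).c g' j = (ex6 ψ C q ν).c g j ∧
      (ex6 ψ C q ν).V g' j = (ex6 ψ C q ν).V g j := by
  have he : ∀ u ∈ Icc 0 (sj6 (ν g) j), et6 ψ (q g') u = et6 ψ (q g) u :=
    fun u hu => et_congr h hu.1 (hu.2.trans (sj_le' j))
  constructor
  · change cp6 ψ (q g') (sj6 (ν g') j) = cp6 ψ (q g) (sj6 (ν g) j)
    rw [hsj]
    exact cc_congr he
  · rw [V_eq hc hn, V_eq hc' hn', hsj]
    have h1 := sj_mem hn' j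
    rw [hsj] at h1
    exact ww_congr hc hc' (sj_mem hn j).1 (sj_mem hn j).2 h1.2 he

/-- The exploration is well formed. -/
theorem ex_wf (hU : Uni ψ b) (hfin : C.Finite) (hne : C.Nonempty)
    (hpc : ∀ g ∈ C, PC ψ b (q g) (ν g) δ) : (ex6 ψ C q ν).WF := by
  have hcrv : ∀ g ∈ C, Crv (et6 ψ (q g)) (ν g) := fun g hg => crv6 hU (hpc g hg)
  have hV : ∀ g ∈ C, ∀ j, (ex6 ψ C q ν).V g j = wd6 ψ (q g) (sj6 (ν g) j) :=
    fun g hg j => V_eq (hcrv g hg) (hpc g hg).pos j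
  have hst : ∀ g ∈ C, ∀ g' ∈ C, (∀ j ≤ ν g, q g' j = q g j) → ν g' = ν g :=
    fun g hg g' hg' he => nu_stop (hpc g hg) (hpc g' hg') he
  constructor
  · exact hfin
  · exact hne
  · exact fun g hg => (hpc g hg).pos
  · exact hst
  · intro g hg g' hg' j hj ha
    refine ex_adc (hcrv g hg) (hcrv g' hg') (hpc g hg).pos (hpc g' hg').pos ha ?_
    rcases Nat.lt_or_ge j (ν g) with h1 | h1
    · have h2 : j < ν g' := by
        by_contra hc
        push Not at hc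
        have := hst g' hg' g hg fun i hi => (ha i (hi.trans hc)).symm
        omega
      rw [sj_lt h1, sj_lt h2]
    · have h2 : j = ν g := le_antisymm hj h1
      have h3 : ν g' = ν g := hst g hg g' hg' fun i hi => ha i (hi.trans h1)
      rw [h3]
  · intro g hg
    change cp6 ψ (q g) (sj6 (ν g) 0) = 0
    rw [sj_lt (hpc g hg).pos, Nat.cast_zero]
    exact (hcrv g hg).cap_zero
  · intro g hg
    have h1 := wf_cc (hcrv g hg) (hpc g hg).pos le_rfl (half_mem (hpc g hg).pos).1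
    have h2 : cp6 ψ (q g) 0 = 0 := (hcrv g hg).cap_zero
    rw [h2, Real.toNNReal_zero] at h1
    change wf6 ψ (q g) (ν g) 0 = 0
    rw [h1]
    have h3 := ww_zero (hcrv g hg)
    rw [et_zero hU (hpc g hg)] at h3
    exact_mod_cast h3
  · intro g hg j _
    exact (hcrv g hg).strictMono.monotoneOn (sj_mem (hpc g hg).pos j)
      (sj_mem (hpc g hg).pos (j + 1)) (sj_mono (Nat.le_succ j))
  · intro g hg t ht
    rw [hV g hg]
    change wf6 ψ (q g) (ν g) t = wd6 ψ (q g) (sj6 (ν g) (ν g))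
    have ht' : cp6 ψ (q g) (ν g - 1 / 2) ≤ t := by
      have : cp6 ψ (q g) (sj6 (ν g) (ν g)) ≤ t := ht
      rwa [sj_nu] at this
    have h0 : 0 ≤ cp6 ψ (q g) (ν g - 1 / 2) :=
      (hcrv g hg).cap_nonneg (half_mem (hpc g hg).pos)
    rw [sj_nu, ← wf_cc (hcrv g hg) (hpc g hg).pos (half_mem (hpc g hg).pos).1 le_rfl,
      wf_eq (hcrv g hg) (hpc g hg).pos, wf_eq (hcrv g hg) (hpc g hg).pos,
      Real.coe_toNNReal _ h0]
    unfold L2.Crv.drvT
    have e1 : min (max (t : ℝ) 0) (cc (et6 ψ (q g)) (ν g - 1 / 2)) =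
        cc (et6 ψ (q g)) (ν g - 1 / 2) := by
      rw [max_eq_left (NNReal.coe_nonneg t)]
      exact min_eq_right ht'
    have e2 : min (max (cp6 ψ (q g) (ν g - 1 / 2)) 0)
        (cc (et6 ψ (q g)) (ν g - 1 / 2)) = cc (et6 ψ (q g)) (ν g - 1 / 2) := by
      rw [max_eq_left h0]
      exact min_eq_left le_rfl
    rw [e1, e2]

end

end Vale.Agent.P167.SLE
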