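import Vale.Agent.P167.SLE.Asm6
import Vale.Agent.P167.E2.Intf
import Vale.Agent.P167.H446.Exap
import Vale.Agent.P153.R2.R1.Out1

/-!
# P167: the curve theorem from the input `S_seq` of the lattice side
-/

namespace Vale.Agent.P167.SLE

open Vale.Agent.P153.R2

theorem s_intf : S_intf := fun _ _ _ _ δ _ hk hkn hp hS _ hA =>
  ⟨_, E2.isInterface_crv hp hS hk hkn hA δ⟩

/-- **The convergence of the interfaces to `SLE_6` from the input of the lattice side.** -/
theorem curveLimit_of_seq (hseq : S_seq) : E6.CurveLimit :=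
  curveLimit R1.i_unif R1.i_uinj hseq s_intf H446.Exap.s_exap

end Vale.Agent.P167.SLE
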