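import Vale.Agent.P167.SLE.Comp6
import Vale.Agent.P167.SLE.Supp

/-!
# P167, block ASM6: the limit of one sequence of random curves
-/

open MeasureTheory Set Filter Topology Metric Vale.Agent.P164
open scoped NNReal ENNReal

namespace Vale.Agent.P167.SLE

open Vale.Agent.P153.R2 Vale.Agent.P153.R2.ARCX Vale.Agent.P153.R2.DET Vale.Agent.P153.R2.UNIQ
open Vale.Agent.P153.R2.C1

/-- Random curves `X n` in domains with uniformizers `ψn n`, which are the images of simple curves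
`xs` of the half-plane with capacities `cs` and drivers `w`. -/
structure SeqHyp [MeasurableSpace C(ℝ≥0, ℝ)] (ψn : ℕ → ℂ → ℂ) (ψ : ℂ → ℂ) (bn : ℕ → ℂ) (b : ℂ)
    (ε : ℕ → ℝ) (Ω : ℕ → Type) [∀ n, MeasurableSpace (Ω n)] (P : ∀ n, Measure (Ω n))
    (X : ∀ n, Ω n → C(unitInterval, ℂ)) (xs : ∀ n, Ω n → ℝ → ℂ) (cs : ∀ n, Ω n → ℝ → ℝ)
    (w : ∀ n, Ω n → C(ℝ≥0, ℝ)) (T0 T1 : ∀ n, Ω n → ℝ) (lam : Measure C(ℝ≥0, ℝ)) (R : ℝ) :
    Prop where
  prob : ∀ n, IsProbabilityMeasure (P n)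
  problam : IsProbabilityMeasure lam
  uni : Uni ψ b
  unif : TendstoUniformlyOn ψn ψ atTop HC
  endp : Tendsto bn atTop (𝓝 b)
  eps : Tendsto ε atTop (𝓝 0)
  disc : ∀ (n : ℕ) (ω : Ω n),
    Disc (ψn n) (bn n) (X n ω) (xs n ω) (cs n ω) (w n ω) (T0 n ω) (T1 n ω) (ε n)
  /-- the drivers converge in law to `lam` -/
  drv : ∀ f : C(ℝ≥0, ℝ) → ℝ, Continuous f → (∃ M, ∀ y, |f y| ≤ M) →
    Tendsto (fun n => ∫ ω, f (w n ω) ∂(P n)) atTop (𝓝 (∫ y, f y ∂lam))
  bdd : ∀ (n : ℕ) (ω : Ω n) (t : unitInterval), ‖X n ω t‖ ≤ R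
  /-- the numbers of crossings of fixed annuli are tight -/
  cross : ∀ (y : ℂ) (r : ℝ), 0 < r → ∀ q : ℝ≥0∞, 0 < q →
    ∃ k : ℕ, ∀ᶠ n in atTop, P n {ω | Cross (X n ω) y r (3 * r) k} ≤ q
  /-- no return from `b` -/
  fin : ∀ r : ℝ, 0 < r → ∀ q : ℝ≥0∞, 0 < q → ∃ r' : ℝ, 0 < r' ∧ ∀ᶠ n in atTop,
    P n {ω | ∃ s t : unitInterval, s ≤ t ∧ dist (X n ω s) b < r' ∧ r < dist (X n ω t) b} ≤ q
  /-- macroscopic travel costs capacity -/
  tip : ∀ e : ℝ, 0 < e → ∀ r : ℝ, 0 < r → ∀ q : ℝ≥0∞, 0 < q → ∃ d : ℝ, 0 < d ∧ ∀ᶠ n in atTop,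
    P n {ω | ∃ s t : unitInterval, s ≤ t ∧ (t : ℝ) < T1 n ω ∧
      (∀ u ∈ Icc s t, r ≤ dist (X n ω u) b) ∧ e ≤ dist (X n ω s) (X n ω t) ∧
      cs n ω t - cs n ω s < d} ≤ q

/-- the limit law of (driver, curve in its capacity parametrisation) -/
structure IsLim [MeasurableSpace C(ℝ≥0, ℝ)] [MeasurableSpace C(unitInterval, ℂ)] (ψ : ℂ → ℂ)
    (b : ℂ) (lam : Measure C(ℝ≥0, ℝ)) (ν : Measure (C(ℝ≥0, ℝ) × C(unitInterval, ℂ))) : Prop where
  prob : IsProbabilityMeasure ν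
  fst : ν.map Prod.fst = lam
  cap : ∀ᵐ p ∂ν, CapG ψ b p.1 p.2

theorem IsLim.unique [MeasurableSpace C(ℝ≥0, ℝ)] [MeasurableSpace C(unitInterval, ℂ)]
    [BorelSpace C(unitInterval, ℂ)] {ψ : ℂ → ℂ} {b : ℂ} {lam : Measure C(ℝ≥0, ℝ)}
    {ν ν' : Measure (C(ℝ≥0, ℝ) × C(unitInterval, ℂ))} (h : IsLim ψ b lam ν)
    (h' : IsLim ψ b lam ν') : ν = ν' := by
  have := h.prob
  have := h'.prob
  refine graph_unique ν ν' {p | CapG ψ b p.1 p.2} ?_ h.cap h'.cap ?_
  · rw [Measure.fst, Measure.fst, h.fst, h'.fst]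
  · intro x x' y hx hx'
    exact CapG.unique hx hx'

/-- Almost sure properties under a continuous image of a measure on a Polish space (no
measurability of the property is needed). -/
theorem ae_map_of_continuous {E E' : Type*} [TopologicalSpace E] [SecondCountableTopology E]
    [TopologicalSpace.IsCompletelyPseudoMetrizableSpace E] [MeasurableSpace E] [BorelSpace E] [TopologicalSpace E'] [T2Space E'] [MeasurableSpace E']
    [BorelSpace E'] (μ : Measure E) [IsFiniteMeasure μ] {π : E → E'} (hπ : Continuous π)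
    {p : E' → Prop} (h : ∀ᵐ x ∂μ, p (π x)) : ∀ᵐ y ∂(μ.map π), p y := by
  have h0 : μ {x | ¬ p (π x)} = 0 := h
  obtain ⟨N, hN1, hN2, hN3⟩ := exists_measurable_superset_of_null h0
  have key : ∀ ε : ℝ≥0∞, 0 < ε → (μ.map π) {y | ¬ p y} ≤ ε := by
    intro ε hε
    have hreg := innerRegular_isCompact_isClosed_measurableSet_of_finite μ
    obtain ⟨K, hKA, ⟨hK, hKc⟩, hμK⟩ :=
      hreg.exists_subset_lt_add (ε := ε) (p := fun s => IsCompact s ∧ IsClosed s)
        ⟨isCompact_empty, isClosed_empty⟩ hN2.compl (measure_ne_top μ _) hε.ne'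
    have hπK : IsCompact (π '' K) := hK.image hπ
    have h1 : {y | ¬ p y} ⊆ (π '' K)ᶜ := by
      rintro _ hy ⟨x, hx, rfl⟩
      exact hKA hx (hN1 hy)
    refine (measure_mono h1).trans ?_
    rw [Measure.map_apply hπ.measurable hπK.isClosed.measurableSet.compl]
    have h2 : π ⁻¹' (π '' K)ᶜ ⊆ N ∪ Nᶜ \ K := by
      intro x hx
      by_cases hxN : x ∈ N
      · exact Or.inl hxN
      · exact Or.inr ⟨hxN, fun hxK => hx ⟨x, hxK, rfl⟩⟩
    refine (measure_mono h2).trans ((measure_union_le _ _).trans ?_)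
    rw [hN3, zero_add, measure_sdiff hKA hKc.measurableSet.nullMeasurableSet (measure_ne_top μ _)]
    exact tsub_le_iff_left.2 (by rw [add_comm] at hμK; rw [add_comm]; exact hμK.le)
  have h3 : (μ.map π) {y | ¬ p y} = 0 := by
    refine le_antisymm (le_of_forall_pos_le_add fun ε hε => ?_) bot_le
    rw [zero_add]
    exact key ε hε
  exact h3

/-- tightness of a sequence converging in law -/
theorem tight_of_lim {E : Type*} [TopologicalSpace E] [PolishSpace E] [MeasurableSpace E]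
    [BorelSpace E] (μ : ℕ → Measure E) (hμ : ∀ n, IsProbabilityMeasure (μ n)) (ν : Measure E)
    (hν : IsProbabilityMeasure ν)
    (h : ∀ f : E → ℝ, Continuous f → (∃ C, ∀ x, |f x| ≤ C) →
      Tendsto (fun n => ∫ x, f x ∂(μ n)) atTop (𝓝 (∫ x, f x ∂ν))) :
    IsTightMeasureSet (range μ) := by
  have hlimY := tendsto_pm μ hμ ν hν h
  let _ := TopologicalSpace.upgradeIsCompletelyMetrizable E
  have hc : IsCompact (closure (range fun n => toPM (μ n) (hμ n))) :=
    hlimY.isCompact_insert_range.closure_of_subset (subset_insert _ _)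
  have h1 := isTightMeasureSet_of_isCompact_closure hc
  refine h1.subset ?_
  rintro _ ⟨n, rfl⟩
  exact ⟨_, ⟨n, rfl⟩, rfl⟩

/-- composition of the travel condition with a reparametrisation -/
theorem good_comp {X : C(unitInterval, ℂ)} {c : ℝ → ℝ} {b : ℂ} {T e r d : ℝ} (hT0 : 0 ≤ T)
    (hT1 : T ≤ 1)
    (h : ∀ s t : unitInterval, s ≤ t → (t : ℝ) < T → (∀ u ∈ Icc s t, r ≤ dist (X u) b) →
      e ≤ dist (X s) (X t) → d ≤ c t - c s) (φ : unitInterval ≃o unitInterval)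
    (s t : unitInterval) (hst : s ≤ t) (ht : (t : ℝ) < ((φ.symm (pr T) : unitInterval) : ℝ))
    (hu : ∀ u ∈ Icc s t, r ≤ dist (reparam X φ u) b)
    (he : e ≤ dist (reparam X φ s) (reparam X φ t)) : d ≤ c (ex φ t) - c (ex φ s) := by
  rw [ex_coe, ex_coe]
  refine h (φ s) (φ t) (φ.monotone hst) ?_ ?_ he
  · have h1 : t < φ.symm (pr T) := ht
    have h2 := φ.strictMono h1
    rw [φ.apply_symm_apply, pr_of_mem T hT0 hT1] at h2
    exact h2
  · intro u hu'
    have h1 : φ.symm u ∈ Icc s t := by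
      refine ⟨?_, ?_⟩
      · have := φ.symm.monotone hu'.1
        rwa [φ.symm_apply_apply] at this
      · have := φ.symm.monotone hu'.2
        rwa [φ.symm_apply_apply] at this
    have h2 := hu _ h1
    rwa [reparam_apply, φ.apply_symm_apply] at h2

section main

variable [MeasurableSpace C(unitInterval, ℂ)] [BorelSpace C(unitInterval, ℂ)]
  [MeasurableSpace C(ℝ≥0, ℝ)] [BorelSpace C(ℝ≥0, ℝ)]

/-- Every subsequence has a further subsequence along which curves close to the `X n` converge in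
law to the curve of a law `ν` with `IsLim`. -/
theorem seq_sub {ψn : ℕ → ℂ → ℂ} {ψ : ℂ → ℂ} {bn : ℕ → ℂ} {b : ℂ} {ε : ℕ → ℝ}
    {Ω : ℕ → Type} [∀ n, MeasurableSpace (Ω n)] [∀ n, DiscreteMeasurableSpace (Ω n)]
    {P : ∀ n, Measure (Ω n)} {X : ∀ n, Ω n → C(unitInterval, ℂ)} {xs : ∀ n, Ω n → ℝ → ℂ}
    {cs : ∀ n, Ω n → ℝ → ℝ} {w : ∀ n, Ω n → C(ℝ≥0, ℝ)} {T0 T1 : ∀ n, Ω n → ℝ}
    {lam : Measure C(ℝ≥0, ℝ)} {R : ℝ} (H : SeqHyp ψn ψ bn b ε Ω P X xs cs w T0 T1 lam R)
    (Y : ∀ n, Ω n → C(unitInterval, ℂ)) (e : ℕ → ℝ) (he : Tendsto e atTop (𝓝 0))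
    (hY : ∀ n ω, ∃ φ : unitInterval ≃o unitInterval, dist (reparam (Y n ω) φ) (X n ω) ≤ e n)
    (κ : ℕ → ℕ) (hκ : StrictMono κ) :
    ∃ (θ : ℕ → ℕ) (ν : Measure (C(ℝ≥0, ℝ) × C(unitInterval, ℂ))), StrictMono θ ∧
      IsLim ψ b lam ν ∧ ∀ F : C(unitInterval, ℂ) → ℝ, Continuous F → (∃ M, ∀ x, |F x| ≤ M) →
        (∀ (x : C(unitInterval, ℂ)) (σ : unitInterval ≃o unitInterval), F (reparam x σ) = F x) →
        Tendsto (fun n => ∫ ω, F (Y (κ (θ n)) ω) ∂(P (κ (θ n)))) atTop (𝓝 (∫ p, F p.2 ∂ν)) := by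
  have hprob := H.prob
  have hlamp := H.problam
  -- joint convergence along a subsequence
  have htw : IsTightMeasureSet (range fun n => (P n).map (w n)) := by
    refine tight_of_lim _ (fun n => Measure.isProbabilityMeasure_map
      (Measurable.of_discrete (f := w n)).aemeasurable) lam H.problam fun f hf hC => ?_
    refine (H.drv f hf hC).congr fun n => ?_
    exact (integral_map (Measurable.of_discrete (f := w n)).aemeasurable
      hf.aestronglyMeasurable).symm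
  obtain ⟨θ, hθ, μ, hμ, hμlim⟩ := joint_main Ω P H.prob X (fun n => Measurable.of_discrete) w
    (fun n => Measurable.of_discrete) R (fun n => ae_of_all _ fun ω t => H.bdd n ω t) H.cross htw κ
  set k0 : ℕ → ℕ := fun n => κ (θ n) with hk0
  have hk0m : StrictMono k0 := hκ.comp hθ
  let _ := TopologicalSpace.upgradeIsCompletelyMetrizable C(ℝ≥0, ℝ)
  set V : ∀ n, Ω (k0 n) → C(unitInterval, ℂ) × C(ℝ≥0, ℝ) := fun n ω =>
    (rho (X (k0 n) ω), w (k0 n) ω) with hV
  -- (END) for the limit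
  have hend : ∀ᵐ y ∂μ, ∀ s t : unitInterval, s ≤ t → y.1 s = b → y.1 t = b := by
    have h1 : ∀ i : ℕ, ∀ᵐ y ∂μ, ∀ s t : unitInterval, s ≤ t → y.1 s = b →
        dist (y.1 t) b ≤ 1 / ((i : ℝ) + 1) := by
      intro i
      have h2 := support_freq (fun n => Ω (k0 n)) (fun n => P (k0 n)) (fun n => H.prob _) V
        (fun n => Measurable.of_discrete) μ hμlim
        (fun n m => {ω | ∃ s t : unitInterval, s ≤ t ∧
          dist (X (k0 n) ω s) b < 1 / ((m : ℝ) + 1) ∧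
          1 / ((i : ℝ) + 1) < dist (X (k0 n) ω t) b}) (by
          intro q hq
          obtain ⟨r', hr', hev⟩ := H.fin (1 / ((i : ℝ) + 1)) (by positivity) q hq
          obtain ⟨m, hm⟩ := exists_nat_one_div_lt hr'
          refine ⟨m, ?_⟩
          filter_upwards [hk0m.tendsto_atTop.eventually hev] with n hn
          refine (measure_mono ?_).trans hn
          rintro ω ⟨s, t, hst, h3, h4⟩
          exact ⟨s, t, hst, h3.trans hm, h4⟩)
      filter_upwards [h2] with y hy s t hst hys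
      obtain ⟨m, k, hk, ω, hω, hlim⟩ := hy
      by_contra hcon
      push Not at hcon
      have h3 : Tendsto (fun j => rho (X (k0 (k j)) (ω j))) atTop (𝓝 y.1) :=
        (continuous_fst.tendsto y).comp hlim
      have h4 : ∀ u : unitInterval, Tendsto (fun j => rho (X (k0 (k j)) (ω j)) u) atTop
          (𝓝 (y.1 u)) := fun u => ((continuous_eval_const u).tendsto y.1).comp h3
      have h5 : ∀ᶠ j in atTop, dist (rho (X (k0 (k j)) (ω j)) s) b < 1 / ((m : ℝ) + 1) := by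
        have := (h4 s).dist (tendsto_const_nhds (x := b))
        rw [hys, dist_self] at this
        exact this.eventually_lt_const (by positivity)
      have h6 : ∀ᶠ j in atTop, 1 / ((i : ℝ) + 1) < dist (rho (X (k0 (k j)) (ω j)) t) b :=
        ((h4 t).dist (tendsto_const_nhds (x := b))).eventually_const_lt hcon
      obtain ⟨j, hj1, hj2⟩ := (h5.and h6).exists
      exact hω j ⟨_, _, (hIso (X (k0 (k j)) (ω j))).symm.monotone hst, hj1, hj2⟩
    have h2 := ae_all_iff.2 h1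
    filter_upwards [h2] with y hy s t hst hys
    by_contra hcon
    have h3 : 0 < dist (y.1 t) b := dist_pos.2 hcon
    obtain ⟨i, hi⟩ := exists_nat_one_div_lt h3
    exact absurd (hy i s t hst hys) (not_le.2 hi)
  -- the data of the reparametrised curves
  have hdisc : ∀ n (ω : Ω n), Disc (ψn n) (bn n) (rho (X n ω))
      (fun t => xs n ω (ex (hIso (X n ω)).symm t)) (fun t => cs n ω (ex (hIso (X n ω)).symm t))
      (w n ω) (((hIso (X n ω)).symm.symm (pr (T0 n ω)) : unitInterval) : ℝ)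
      (((hIso (X n ω)).symm.symm (pr (T1 n ω)) : unitInterval) : ℝ) (ε n) := fun n ω =>
    Disc.comp (H.disc n ω) (hIso (X n ω)).symm
  -- converging sequences
  have hSq : ∀ (y : C(unitInterval, ℂ) × C(ℝ≥0, ℝ)) (k : ℕ → ℕ), StrictMono k →
      ∀ ω : ∀ j, Ω (k0 (k j)), Tendsto (fun j => V (k j) (ω j)) atTop (𝓝 y) →
      Sq (fun j => ψn (k0 (k j))) ψ (fun j => bn (k0 (k j))) b (fun j => w (k0 (k j)) (ω j)) y.2
        (fun j => rho (X (k0 (k j)) (ω j))) y.1
        (fun j t => xs (k0 (k j)) (ω j) (ex (hIso (X (k0 (k j)) (ω j))).symm t))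
        (fun j t => cs (k0 (k j)) (ω j) (ex (hIso (X (k0 (k j)) (ω j))).symm t))
        (fun j => (((hIso (X (k0 (k j)) (ω j))).symm.symm
          (pr (T0 (k0 (k j)) (ω j))) : unitInterval) : ℝ))
        (fun j => (((hIso (X (k0 (k j)) (ω j))).symm.symm
          (pr (T1 (k0 (k j)) (ω j))) : unitInterval) : ℝ)) (fun j => ε (k0 (k j))) := by
    intro y k hk ω hlim
    have hkk : Tendsto (fun j => k0 (k j)) atTop atTop := (hk0m.comp hk).tendsto_atTop
    refine ⟨H.uni, ?_, H.endp.comp hkk, H.eps.comp hkk, fun j => hdisc _ _,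
      (continuous_snd.tendsto y).comp hlim, (continuous_fst.tendsto y).comp hlim⟩
    rw [Metric.tendstoUniformlyOn_iff]
    intro e' he'
    exact hkk.eventually (Metric.tendstoUniformlyOn_iff.1 H.unif e' he')
  -- (TIP) for the limit
  have hnpl : ∀ᵐ y ∂μ, NPL ψ b y.1 y.2 := by
    have h1 : ∀ i l : ℕ, ∀ᵐ y ∂μ, ∃ (m : ℕ) (k : ℕ → ℕ) (_ : StrictMono k)
        (ω : ∀ j, Ω (k0 (k j))), (∀ j, ω j ∉ {ω : Ω (k0 (k j)) | ∃ s t : unitInterval, s ≤ t ∧
          (t : ℝ) < T1 (k0 (k j)) ω ∧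
          (∀ u ∈ Icc s t, 1 / ((l : ℝ) + 1) ≤ dist (X (k0 (k j)) ω u) b) ∧
          1 / ((i : ℝ) + 1) ≤ dist (X (k0 (k j)) ω s) (X (k0 (k j)) ω t) ∧
          cs (k0 (k j)) ω t - cs (k0 (k j)) ω s < 1 / ((m : ℝ) + 1)}) ∧
          Tendsto (fun j => V (k j) (ω j)) atTop (𝓝 y) := by
      intro i l
      refine support_freq (fun n => Ω (k0 n)) (fun n => P (k0 n)) (fun n => H.prob _) V
        (fun n => Measurable.of_discrete) μ hμlim
        (fun n m => {ω : Ω (k0 n) | ∃ s t : unitInterval, s ≤ t ∧ (t : ℝ) < T1 (k0 n) ω ∧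
          (∀ u ∈ Icc s t, 1 / ((l : ℝ) + 1) ≤ dist (X (k0 n) ω u) b) ∧
          1 / ((i : ℝ) + 1) ≤ dist (X (k0 n) ω s) (X (k0 n) ω t) ∧
          cs (k0 n) ω t - cs (k0 n) ω s < 1 / ((m : ℝ) + 1)}) ?_
      intro q hq
      obtain ⟨d, hd, hev⟩ := H.tip (1 / ((i : ℝ) + 1)) (by positivity) (1 / ((l : ℝ) + 1))
        (by positivity) q hq
      obtain ⟨m, hm⟩ := exists_nat_one_div_lt hd
      refine ⟨m, ?_⟩
      filter_upwards [hk0m.tendsto_atTop.eventually hev] with n hn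
      refine (measure_mono ?_).trans hn
      rintro ω ⟨s, t, hst, h2, h3, h4, h5⟩
      exact ⟨s, t, hst, h2, h3, h4, h5.trans hm⟩
    have h2 := ae_all_iff.2 fun i => ae_all_iff.2 (h1 i)
    filter_upwards [h2] with y hy
    refine npl_of_seq fun e0 he0 r0 hr0 => ?_
    obtain ⟨i, hi⟩ := exists_nat_one_div_lt he0
    obtain ⟨l, hl⟩ := exists_nat_one_div_lt hr0
    obtain ⟨m, k, hk, ω, hω, hlim⟩ := hy i l
    refine ⟨_, _, _, _, _, _, _, _, _, 1 / ((m : ℝ) + 1), hSq y k hk ω hlim, by positivity,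
      Eventually.frequently (Eventually.of_forall fun j => ?_)⟩
    intro s t hst ht hu hes
    have hD := H.disc (k0 (k j)) (ω j)
    refine good_comp (hD.pos.le.trans hD.lt.le) hD.le (e := e0) (r := r0) (b := b) ?_
      (hIso (X (k0 (k j)) (ω j))).symm s t hst ht hu hes
    intro s' t' hst' ht' hu' hes'
    by_contra hcon
    push Not at hcon
    exact hω j ⟨s', t', hst', ht', fun u hu => hl.le.trans (hu' u hu), hi.le.trans hes', hcon⟩
  -- the capacity parametrisations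
  choose rs hrs using fun n (ω : Ω n) => exists_cap (hdisc n ω)
  choose φ hφ using hY
  set G : ∀ n, Ω n → C(unitInterval, ℂ) := fun n ω => reparam (rho (X n ω)) (rs n ω).symm with hG
  set Z : ∀ n, Ω n → C(unitInterval, ℂ) := fun n ω =>
    reparam (reparam (reparam (Y n ω) (φ n ω)) (hIso (X n ω)).symm) (rs n ω).symm with hZ
  have hZG : ∀ n ω, dist (Z n ω) (G n ω) ≤ e n := by
    intro n ω
    have h1 : G n ω = reparam (reparam (X n ω) (hIso (X n ω)).symm) (rs n ω).symm := rfl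
    rw [h1, hZ]
    simp only
    rw [dist_reparam, dist_reparam]
    exact hφ n ω
  have hdet : ∀ y : C(unitInterval, ℂ) × C(ℝ≥0, ℝ),
      (∀ s t : unitInterval, s ≤ t → y.1 s = b → y.1 t = b) → NPL ψ b y.1 y.2 →
      ∀ k : ℕ → ℕ, StrictMono k → ∀ ω : ∀ j, Ω (k0 (k j)),
        Tendsto (fun j => V (k j) (ω j)) atTop (𝓝 y) → ∃ g, CapG ψ b y.2 g ∧
          Tendsto (fun j => Z (k0 (k j)) (ω j)) atTop (𝓝 g) := by
    intro y hy1 hy2 k hk ω hlim
    obtain ⟨γ, g, h1, h2, h3, h4⟩ := det6B (hSq y k hk ω hlim)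
      (Gn := fun j => G (k0 (k j)) (ω j)) (fun j => rs (k0 (k j)) (ω j))
      (fun j t => by
        show reparam (rho (X (k0 (k j)) (ω j))) (rs (k0 (k j)) (ω j)).symm
          (rs (k0 (k j)) (ω j) t) = _
        rw [reparam_apply, OrderIso.symm_apply_apply])
      (fun j t ht => by
        rw [hrs _ _ t ht, ex_coe])
      hy1 hy2
    refine ⟨g, ⟨γ, h1, h2, h3⟩, ?_⟩
    have h5 : Tendsto (fun j => dist (Z (k0 (k j)) (ω j)) (G (k0 (k j)) (ω j))) atTop (𝓝 0) :=
      squeeze_zero (fun _ => dist_nonneg) (fun j => hZG _ _)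
        (he.comp (hk0m.comp hk).tendsto_atTop)
    exact (tendsto_iff_of_dist h5).2 h4
  obtain ⟨ν', hν', hfst, hsupp, hlimν⟩ := ecm (fun n => Ω (k0 n)) (fun n => P (k0 n))
    (fun n => H.prob _) V (fun n => Measurable.of_discrete) (fun n ω => Z (k0 n) ω)
    (fun n => Measurable.of_discrete) μ hμlim (by
      filter_upwards [hend, hnpl] with y hy1 hy2
      by_cases hex : ∃ g, CapG ψ b y.2 g
      · obtain ⟨g, hg⟩ := hex
        refine ⟨g, fun k hk ω hlim => ?_⟩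
        obtain ⟨g', hg', hlim'⟩ := hdet y hy1 hy2 k hk ω hlim
        rwa [hg.unique hg']
      · refine ⟨0, fun k hk ω hlim => ?_⟩
        obtain ⟨g', hg', -⟩ := hdet y hy1 hy2 k hk ω hlim
        exact absurd ⟨g', hg'⟩ hex)
  have hπc : Continuous fun p : (C(unitInterval, ℂ) × C(ℝ≥0, ℝ)) × C(unitInterval, ℂ) =>
      (p.1.2, p.2) := (continuous_snd.comp continuous_fst).prodMk continuous_snd
  have hπ : Measurable fun p : (C(unitInterval, ℂ) × C(ℝ≥0, ℝ)) × C(unitInterval, ℂ) =>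
      (p.1.2, p.2) := (measurable_snd.comp measurable_fst).prodMk measurable_snd
  have hμ2 : μ.map Prod.snd = lam := by
    have h1 : IsProbabilityMeasure (μ.map Prod.snd) :=
      Measure.isProbabilityMeasure_map measurable_snd.aemeasurable
    refine ext_of_forall_integral_eq_of_IsFiniteMeasure fun f => ?_
    have h2 := hμlim (fun p => f p.2) (f.continuous.comp continuous_snd)
      ⟨‖f‖, fun x => f.norm_coe_le_norm x.2⟩
    have h3 := (H.drv f f.continuous ⟨‖f‖, fun x => f.norm_coe_le_norm x⟩).comp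
      hk0m.tendsto_atTop
    rw [integral_map measurable_snd.aemeasurable f.continuous.aestronglyMeasurable]
    exact tendsto_nhds_unique h2 h3
  have hcap : ∀ᵐ p ∂ν', CapG ψ b p.1.2 p.2 := by
    have h1 : ∀ᵐ p ∂ν', (∀ s t : unitInterval, s ≤ t → p.1.1 s = b → p.1.1 t = b) ∧
        NPL ψ b p.1.1 p.1.2 := by
      have h2 := hend.and hnpl
      rw [← hfst] at h2
      exact ae_of_ae_map measurable_fst.aemeasurable h2
    filter_upwards [h1, hsupp] with p hp1 hp2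
    obtain ⟨k, hk, ω, h3, h4⟩ := hp2
    obtain ⟨g, hg, hlim⟩ := hdet p.1 hp1.1 hp1.2 k hk ω h3
    have := tendsto_nhds_unique h4 hlim
    rwa [this]
  refine ⟨θ, ν'.map fun p => (p.1.2, p.2), hθ, ⟨Measure.isProbabilityMeasure_map
    hπ.aemeasurable, ?_, ?_⟩, ?_⟩
  · rw [Measure.map_map measurable_fst hπ, ← hμ2, ← hfst, Measure.map_map measurable_snd
      measurable_fst]
    rfl
  · exact ae_map_of_continuous ν' hπc (p := fun q : C(ℝ≥0, ℝ) × C(unitInterval, ℂ) =>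
      CapG ψ b q.1 q.2) hcap
  · intro F hF hM hinv
    obtain ⟨M, hM⟩ := hM
    have hi : ∫ p, F p.2 ∂(ν'.map fun p => (p.1.2, p.2)) = ∫ p, F p.2 ∂ν' :=
      integral_map (f := fun p : C(ℝ≥0, ℝ) × C(unitInterval, ℂ) => F p.2) hπ.aemeasurable
        (hF.comp continuous_snd).aestronglyMeasurable
    rw [hi]
    have h1 := hlimν (fun p => F p.2) (hF.comp continuous_snd) ⟨M, fun x => hM x.2⟩
    refine h1.congr fun n => ?_
    refine integral_congr_ae (ae_of_all _ fun ω => ?_)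
    show F (Z (k0 n) ω) = F (Y (κ (θ n)) ω)
    rw [hZ]
    simp only
    rw [hinv, hinv, hinv]

end main

end Vale.Agent.P167.SLE
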