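import Vale.Agent.P167.SLE.Disc6
import Vale.Agent.P167.SLE.Asm6
import Vale.Agent.P167.S6.Tip2

/-!
# P167, block DISC6: the hypotheses `SeqHyp` from a family of polygonal curves

`seqHyp_of`: `Fam` (simple polygonal curves, converging uniformizers), the hypothesis `H411.Close` on
the observable, tightness of the crossing numbers (`cross`), no return from the end (`fin`) and no
fjords (`nf`) give `SeqHyp`.
-/

open MeasureTheory ProbabilityTheory Filter Topology Set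
open scoped NNReal ENNReal

namespace Vale.Agent.P167.SLE

open Vale.Agent.P153 Vale.Agent.P153.R2 Vale.Agent.P153.R2.DET Vale.Agent.P153.R2.UNIQ
open Vale.Agent.P153.R2.C1 Vale.Agent.P167.E6
open Vale.Agent.P167.H411 (Close Expn)
open Vale.Agent.P167.E2 (lin)

/-- the configurations as a set -/
def Cs6 (S : Finset (ℤ × ℤ)) : Set (Finset (Sym2 (ℤ × ℤ))) := {A | A ∈ (edges S).powerset}

theorem cs6_finite (S : Finset (ℤ × ℤ)) : (Cs6 S).Finite := Finset.finite_toSet _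

theorem cs6_nonempty (S : Finset (ℤ × ℤ)) : (Cs6 S).Nonempty := ⟨∅, Finset.empty_mem_powerset _⟩

theorem ex_cs6 (S : Finset (ℤ × ℤ)) (F : Finset (Sym2 (ℤ × ℤ)) → ℝ) : Ex (Cs6 S) F = mean S F := by
  have e1 : Cs6 S = ((edges S).powerset : Set (Finset (Sym2 (ℤ × ℤ)))) := rfl
  rw [Ex, mean, e1, finsum_mem_coe_finset, ncard_coe_finset, Finset.card_powerset]
  push_cast
  rfl

theorem ex_eq_integral (S : Finset (ℤ × ℤ)) (F : Finset (Sym2 (ℤ × ℤ)) → ℝ) :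
    Ex (Cs6 S) F = ∫ A : Cf S, F A.1 ∂(law S) := by
  rw [ex_cs6, mean_eq]

section

variable [MeasurableSpace C(ℝ≥0, ℝ)] [BorelSpace C(ℝ≥0, ℝ)]

theorem seqHyp_of {ψ : ℂ → ℂ} {b : ℂ} {ψn : ℕ → ℂ → ℂ} {bn : ℕ → ℂ} {δ : ℕ → ℝ}
    {S : ℕ → Finset (ℤ × ℤ)} {q : ℕ → Finset (Sym2 (ℤ × ℤ)) → ℕ → ℂ}
    {ν : ℕ → Finset (Sym2 (ℤ × ℤ)) → ℕ}
    (hfam : Fam ψ b ψn bn δ (fun n => Cs6 (S n)) q ν)
    {O : (ℝ → ℝ) → ℝ → ℝ → ℝ} {c₀ c₁ c₂ : ℝ} (hE : Expn O 6 c₀ c₁ c₂)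
    (hclose : Close (exs ψn (fun n => Cs6 (S n)) q ν) O)
    {R : ℝ} (hbdd : ∀ (n : ℕ) (A : Cf (S n)) (t : unitInterval),
      ‖lc (q n A.1) (ν n A.1) t‖ ≤ R)
    (hcross : ∀ (y : ℂ) (r : ℝ), 0 < r → ∀ q' : ℝ≥0∞, 0 < q' → ∃ k : ℕ, ∀ᶠ n in atTop,
      law (S n) {A | Cross (lc (q n A.1) (ν n A.1)) y r (3 * r) k} ≤ q')
    (hfin : ∀ r : ℝ, 0 < r → ∀ q' : ℝ≥0∞, 0 < q' → ∃ r' : ℝ, 0 < r' ∧ ∀ᶠ n in atTop,
      law (S n) {A | ∃ s t : unitInterval, s ≤ t ∧ dist (lc (q n A.1) (ν n A.1) s) b < r' ∧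
        r < dist (lc (q n A.1) (ν n A.1) t) b} ≤ q')
    (hnf : ∀ e : ℝ, 0 < e → ∀ r₁ : ℝ, 0 < r₁ → ∀ q' : ℝ≥0∞, 0 < q' → ∃ ρ : ℝ, 0 < ρ ∧
      ∀ᶠ n in atTop, law (S n) {A | S6.FJR (ψn n '' {z | 0 < z.im}) (bn n)
        (lc (q n A.1) (ν n A.1)) (tB (ν n A.1)) ρ e r₁} ≤ q') :
    ∃ lam : Measure C(ℝ≥0, ℝ), IsDrv6 lam ∧
      SeqHyp ψn ψ bn b δ (fun n => Cf (S n)) (fun n => law (S n))
        (fun n A => lc (q n A.1) (ν n A.1)) (fun n A => xs6 (ψn n) (q n A.1) (ν n A.1))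
        (fun n A => cs6 (ψn n) (q n A.1) (ν n A.1)) (fun n A => wf6 (ψn n) (q n A.1) (ν n A.1))
        (fun n A => tA (ν n A.1)) (fun n A => tB (ν n A.1)) lam R := by
  obtain ⟨lam, hlam, hB, hlim⟩ := H411.drv_weak (by norm_num) hE hfam.asymB hclose
  have hdrv : ∀ f : C(ℝ≥0, ℝ) → ℝ, Continuous f → (∃ M, ∀ y, |f y| ≤ M) →
      Tendsto (fun n => ∫ A : Cf (S n), f (wf6 (ψn n) (q n A.1) (ν n A.1)) ∂(law (S n))) atTop
        (𝓝 (∫ y, f y ∂lam)) := by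
    intro f hf hM
    refine (hlim f hf hM).congr fun n => ?_
    exact ex_eq_integral (S n) fun A => f (wf6 (ψn n) (q n A) (ν n A))
  have hdisc : ∀ (n : ℕ) (A : Cf (S n)), Disc (ψn n) (bn n) (lc (q n A.1) (ν n A.1))
      (xs6 (ψn n) (q n A.1) (ν n A.1)) (cs6 (ψn n) (q n A.1) (ν n A.1))
      (wf6 (ψn n) (q n A.1) (ν n A.1)) (tA (ν n A.1)) (tB (ν n A.1)) (δ n) :=
    fun n A => disc6 (hfam.unin n) (hfam.pc n A.1 A.2)
  have htight : ∀ q' : ℝ≥0∞, 0 < q' → ∃ K : Set C(ℝ≥0, ℝ), IsCompact K ∧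
      ∀ᶠ n in atTop, law (S n) {A | wf6 (ψn n) (q n A.1) (ν n A.1) ∉ K} ≤ q' := by
    intro q' hq'
    have h1 := tight_of_lim (fun n => (law (S n)).map fun A : Cf (S n) =>
      wf6 (ψn n) (q n A.1) (ν n A.1)) (fun n => Measure.isProbabilityMeasure_map
        (Measurable.of_discrete (f := fun A : Cf (S n) =>
          wf6 (ψn n) (q n A.1) (ν n A.1))).aemeasurable) lam hlam fun f hf hM => by
      refine (hdrv f hf hM).congr fun n => ?_
      exact (integral_map (Measurable.of_discrete (f := fun A : Cf (S n) =>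
          wf6 (ψn n) (q n A.1) (ν n A.1))).aemeasurable hf.aestronglyMeasurable).symm
    obtain ⟨K, hK, hK'⟩ := isTightMeasureSet_iff_exists_isCompact_measure_compl_le.1 h1 q' hq'
    refine ⟨K, hK, Eventually.of_forall fun n => ?_⟩
    have h2 := hK' _ ⟨n, rfl⟩
    rwa [Measure.map_apply Measurable.of_discrete hK.isClosed.measurableSet.compl] at h2
  refine ⟨lam, hB, ?_⟩
  exact
    { prob := fun n => inferInstance
      problam := hlam
      uni := hfam.uni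
      unif := hfam.conv
      endp := hfam.endp
      eps := hfam.mesh
      disc := hdisc
      drv := hdrv
      bdd := hbdd
      cross := hcross
      fin := hfin
      tip := S6.tip' (fun n => law (S n)) ψn ψ bn b hfam.uni hfam.conv hfam.endp hfam.unin
        hfam.diff (fun n (A : Cf (S n)) => lc (q n A.1) (ν n A.1))
        (fun n A => xs6 (ψn n) (q n A.1) (ν n A.1)) (fun n A => cs6 (ψn n) (q n A.1) (ν n A.1))
        (fun n A => wf6 (ψn n) (q n A.1) (ν n A.1)) (fun n A => tA (ν n A.1))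
        (fun n A => tB (ν n A.1)) δ hdisc htight hfin hnf }

end

end Vale.Agent.P167.SLE
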