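import Vale.Agent.P167.SLE.Expl6
import Vale.Agent.P167.H411.FinG

/-!
# P167, block DISC6: small steps, and exit from the compact sets before the last step
-/

open MeasureTheory ProbabilityTheory Filter Topology Set
open scoped NNReal ENNReal

namespace Vale.Agent.P167.SLE

open Vale.Agent.P153 Vale.Agent.P153.R2 Vale.Agent.P153.R2.DET
open Vale.Agent.P153.R2.L2 (Crv gg cc ww drv tau)
open Vale.Agent.P153.R2.L2.Crv (drvT)
open Vale.Agent.P164 (loewnerDomain)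
open Vale.Agent.P167.E2 (lin lin_eq lin_nat lin_zero continuous_lin lin_lip)

/-- A sequence of families of simple polygonal curves with small steps, in domains whose
uniformizers converge uniformly. -/
structure Fam {O : Type*} (ψ : ℂ → ℂ) (b : ℂ) (ψn : ℕ → ℂ → ℂ) (bn : ℕ → ℂ) (δ : ℕ → ℝ)
    (C : ℕ → Set O) (q : ℕ → O → ℕ → ℂ) (ν : ℕ → O → ℕ) : Prop where
  uni : Uni ψ b
  unin : ∀ n, Uni (ψn n) (bn n)
  diff : ∀ n, DifferentiableOn ℂ (ψn n) {z | 0 < z.im}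
  conv : TendstoUniformlyOn ψn ψ atTop HC
  mesh : Tendsto δ atTop (𝓝 0)
  fin : ∀ n, (C n).Finite
  ne : ∀ n, (C n).Nonempty
  pc : ∀ n, ∀ g ∈ C n, PC (ψn n) (bn n) (q n g) (ν n g) (δ n)

section

variable {O : Type*} {ψ : ℂ → ℂ} {b : ℂ} {ψn : ℕ → ℂ → ℂ} {bn : ℕ → ℂ} {δ : ℕ → ℝ}
  {C : ℕ → Set O} {q : ℕ → O → ℕ → ℂ} {ν : ℕ → O → ℕ}

theorem tendsto_cob6 : Tendsto (fun n : ℕ => (n : ℂ) * Complex.I) atTop
    (Bornology.cobounded ℂ ⊓ 𝓟 HC) := by
  rw [tendsto_inf]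
  constructor
  · rw [← tendsto_norm_atTop_iff_cobounded]
    have e : (fun n : ℕ => ‖(n : ℂ) * Complex.I‖) = fun n : ℕ => (n : ℝ) := by
      funext n
      rw [norm_mul, Complex.norm_I, mul_one, Complex.norm_natCast]
    rw [e]
    exact tendsto_natCast_atTop_atTop
  · rw [tendsto_principal]
    refine Eventually.of_forall fun n => ?_
    simp [HC]

/-- The end points converge. -/
theorem endp_of {ψ : ℂ → ℂ} {b : ℂ} {ψn : ℕ → ℂ → ℂ} {bn : ℕ → ℂ} (hU : Uni ψ b)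
    (hUn : ∀ n, Uni (ψn n) (bn n)) (hc : TendstoUniformlyOn ψn ψ atTop HC) :
    Tendsto bn atTop (𝓝 b) := by
  rw [Metric.tendsto_nhds]
  intro ε hε
  filter_upwards [Metric.tendstoUniformlyOn_iff.1 hc (ε / 2) (half_pos hε)] with n hn
  have h1 : Tendsto (fun m : ℕ => ψn n ((m : ℂ) * Complex.I)) atTop (𝓝 (bn n)) :=
    (hUn n).inf.comp tendsto_cob6
  have h2 : Tendsto (fun m : ℕ => ψ ((m : ℂ) * Complex.I)) atTop (𝓝 b) :=
    hU.inf.comp tendsto_cob6
  have h3 : dist (bn n) b ≤ ε / 2 := by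
    refine le_of_tendsto (h1.dist h2) (Eventually.of_forall fun m => ?_)
    rw [dist_comm]
    exact (hn _ (by simp [HC])).le
  linarith

theorem Fam.endp (hS : Fam ψ b ψn bn δ C q ν) : Tendsto bn atTop (𝓝 b) :=
  endp_of hS.uni hS.unin hS.conv

theorem Fam.conv' (hS : Fam ψ b ψn bn δ C q ν) :
    ∀ ε > 0, ∀ᶠ n in atTop, ∀ z : ℂ, 0 ≤ z.im → dist (ψn n z) (ψ z) < ε := by
  intro ε hε
  filter_upwards [Metric.tendstoUniformlyOn_iff.1 hS.conv ε hε] with n hn z hz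
  rw [dist_comm]
  exact hn z hz

/-- **The steps.** As long as the capacity is at most `T` and the driver in `[-R, R]`, the steps are
small and the last step is not reached. -/
theorem Fam.stepBy (hS : Fam ψ b ψn bn δ C q ν) (T R : ℝ) {ε : ℝ} (hε : 0 < ε) :
    ∀ᶠ n in atTop, ∀ g ∈ C n, ∀ j : ℕ, j < ν n g →
      (∀ i : ℕ, i ≤ j → cp6 (ψn n) (q n g) i ≤ T ∧ |wd6 (ψn n) (q n g) i| ≤ R) →
      j + 1 < ν n g ∧ cp6 (ψn n) (q n g) (j + 1) - cp6 (ψn n) (q n g) j ≤ ε ∧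
      ∀ t ∈ Icc (j : ℝ) (j + 1), |wd6 (ψn n) (q n g) t - wd6 (ψn n) (q n g) j| ≤ ε := by
  have hsub : {z : ℂ | 0 < z.im} ⊆ HC := fun z hz => le_of_lt (show 0 < z.im from hz)
  obtain ⟨δ₀, hδ₀, hst⟩ := STEP.steps_seq (b := b) hS.uni.cont hS.uni.ne hS.uni.inf hS.diff
    (fun n => (hS.unin n).inj.mono hsub) hS.conv' T R hε
  have hδ : ∀ᶠ n in atTop, δ n < δ₀ / 2 := hS.mesh.eventually (gt_mem_nhds (half_pos hδ₀))
  have hb : ∀ᶠ n in atTop, dist (bn n) b < δ₀ / 2 :=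
    (Metric.tendsto_nhds.1 hS.endp) _ (half_pos hδ₀)
  filter_upwards [hst, hδ, hb] with n hn hδn hbn
  intro g hg j hj hbef
  have hC := hS.pc n g hg
  have hU := hS.unin n
  have hcrv := crv6 hU hC
  obtain ⟨m, hm⟩ : ∃ m, ν n g = m + 1 := ⟨ν n g - 1, by
    have := hC.pos
    omega⟩
  obtain ⟨L, hL⟩ : ∃ L : ℝ, L = (ν n g : ℝ) := ⟨_, rfl⟩
  have hLm : L = m + 1 := by rw [hL, hm]; push_cast; ring
  have hT₁ : L - 1 / 2 ∈ Ioo 0 L := by
    have : (0 : ℝ) ≤ m := Nat.cast_nonneg m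
    constructor <;> linarith
  rw [← hL] at hcrv
  obtain ⟨hWc, hsg⟩ := hcrv.sgen_local hT₁
  have h0L : (0 : ℝ) ∈ Ico 0 L := ⟨le_rfl, by linarith [hT₁.2, hT₁.1]⟩
  have het : ∀ t ∈ Ico 0 L, ψn n (et6 (ψn n) (q n g) t) = lin (q n g) t := fun t ht => by
    rw [hL] at ht
    exact psi_et hC ht.1 ht.2
  have het0 : et6 (ψn n) (q n g) 0 = 0 := et_zero hU hC
  have hW0 : drvT (et6 (ψn n) (q n g)) L (L - 1 / 2) 0 = 0 := by
    have := hsg.start
    rw [het0] at this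
    exact_mod_cast this.symm
  have hWcp : ∀ t, 0 ≤ t → t ≤ L - 1 / 2 →
      drvT (et6 (ψn n) (q n g)) L (L - 1 / 2) (cc (et6 (ψn n) (q n g)) t) =
        wd6 (ψn n) (q n g) t := by
    intro t h0 h1
    exact drvT_cc hcrv h0 h1 hT₁.2
  have key := hn _ _ _ _ m (fun i => (i : ℝ)) hWc hW0 hsg (by simp) (fun i _ => by simp)
    (by linarith) ?_ ?_ j (by omega) ?_
  · obtain ⟨h1, h2, h3⟩ := key
    have hj1 : (j : ℝ) + 1 ≤ m := by exact_mod_cast h1
    refine ⟨by omega, ?_, ?_⟩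
    · simp only [Nat.cast_add, Nat.cast_one] at h2
      exact h2
    · intro t ht
      have h0t : 0 ≤ t := (Nat.cast_nonneg j).trans ht.1
      have htL : t ≤ L - 1 / 2 := by linarith [ht.2]
      have h4 := h3 (cc (et6 (ψn n) (q n g)) t) ?_
      · rw [hWcp t h0t htL] at h4
        have h5 := hWcp j (Nat.cast_nonneg j) (by linarith)
        rwa [h5] at h4
      · simp only [Nat.cast_add, Nat.cast_one]
        have htI : t ∈ Ico 0 L := ⟨h0t, by linarith⟩
        constructor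
        · exact hcrv.strictMono.monotoneOn ⟨Nat.cast_nonneg j, by linarith⟩ htI ht.1
        · exact hcrv.strictMono.monotoneOn htI ⟨by positivity, by linarith⟩ ht.2
  · intro i hi r hr
    have hi' : (i : ℝ) + 1 ≤ m := by exact_mod_cast hi
    simp only [Nat.cast_add, Nat.cast_one] at hr
    have hi0 : (0 : ℝ) ≤ i := Nat.cast_nonneg i
    rw [het r ⟨hi0.trans hr.1, by linarith [hr.2]⟩, het i ⟨hi0, by linarith⟩]
    refine (hC.dist_le hi0 hr.1 ?_ ?_).trans_lt (by linarith)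
    · rw [← hL]
      linarith [hr.2]
    · linarith [hr.2]
  · have hm0 : (0 : ℝ) ≤ m := Nat.cast_nonneg m
    rw [het m ⟨hm0, by linarith⟩]
    have h1 : dist (lin (q n g) m) (bn n) ≤ δ n := by
      rw [dist_comm, ← hC.fin, ← lin_nat (q n g) (ν n g)]
      refine hC.dist_le hm0 ?_ le_rfl ?_
      · rw [← hL]
        linarith
      · rw [← hL]
        linarith
    have h2 := dist_triangle (lin (q n g) m) (bn n) b
    linarith
  · intro i hi
    have hi1 : (i : ℝ) ≤ L - 1 / 2 := by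
      have : i ≤ m := by omega
      have : (i : ℝ) ≤ m := by exact_mod_cast this
      linarith
    obtain ⟨h1, h2⟩ := hbef i hi
    refine ⟨h1, ?_⟩
    have h3 := hWcp i (Nat.cast_nonneg i) hi1
    rw [h3]
    exact h2

/-- The sequence of explorations. -/
noncomputable def exs {O : Type*} (ψn : ℕ → ℂ → ℂ) (C : ℕ → Set O) (q : ℕ → O → ℕ → ℂ)
    (ν : ℕ → O → ℕ) (n : ℕ) : M1.Expl O ℂ := ex6 (ψn n) (C n) (q n) (ν n)

theorem exs_c (n : ℕ) {g : O} {j : ℕ} (hj : j < ν n g) :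
    (exs ψn C q ν n).c g j = cp6 (ψn n) (q n g) j := by
  change cp6 (ψn n) (q n g) (sj6 (ν n g) j) = _
  rw [sj_lt hj]

theorem exs_V (hS : Fam ψ b ψn bn δ C q ν) (n : ℕ) {g : O} (hg : g ∈ C n) {j : ℕ}
    (hj : j < ν n g) : (exs ψn C q ν n).V g j = wd6 (ψn n) (q n g) j := by
  have h1 := V_eq (C := C n) (crv6 (hS.unin n) (hS.pc n g hg)) (hS.pc n g hg).pos j
  rw [sj_lt hj] at h1
  exact h1

/-- **The explorations have small steps and leave the compact sets before the last step.** -/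
theorem Fam.asymB (hS : Fam ψ b ψn bn δ C q ν) : H411.AsymB (exs ψn C q ν) where
  wf := fun n => ex_wf (hS.unin n) (hS.fin n) (hS.ne n) (hS.pc n)
  small := by
    intro T R
    -- steps of size at most `ε`
    set P : ℕ → ℝ → Prop := fun n ε => ∀ h ∈ (exs ψn C q ν n).C,
      ∀ k, k + 1 < (exs ψn C q ν n).K h →
      (∀ j ≤ k, (exs ψn C q ν n).c h j ≤ T ∧ |(exs ψn C q ν n).V h j| ≤ R) →
      (exs ψn C q ν n).c h (k + 1) - (exs ψn C q ν n).c h k ≤ ε ∧
      ∀ u : ℝ≥0, (exs ψn C q ν n).c h k ≤ u → (u : ℝ) ≤ (exs ψn C q ν n).c h (k + 1) →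
        |(exs ψn C q ν n).w h u - (exs ψn C q ν n).V h k| ≤ ε with hP
    have hmain : ∀ ε > 0, ∀ᶠ n in atTop, P n ε := by
      intro ε hε
      filter_upwards [hS.stepBy T R hε] with n hn g hg j hj hb
      have hj' : j + 1 < ν n g := hj
      have hcr := crv6 (hS.unin n) (hS.pc n g hg)
      have hpos := (hS.pc n g hg).pos
      obtain ⟨-, h1, h2⟩ := hn g hg j (by omega) fun i hi => by
        have h3 := hb i hi
        rwa [exs_c n (by omega), exs_V hS n hg (by omega)] at h3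
      rw [exs_c n hj', exs_c n (by omega), exs_V hS n hg (by omega)]
      push_cast
      refine ⟨h1, fun u hu0 hu1 => ?_⟩
      have hj1 : ((j : ℝ) + 1) + 1 ≤ ν n g := by exact_mod_cast hj'
      have hivt := intermediate_value_Icc (show (j : ℝ) ≤ j + 1 by linarith)
        (hcr.cap_cont.mono (fun t ht => ⟨(Nat.cast_nonneg j).trans ht.1,
          ht.2.trans_lt (by linarith)⟩ : Icc (j : ℝ) (j + 1) ⊆ Ico 0 (ν n g : ℝ)))
      obtain ⟨t, ht, htu⟩ := hivt ⟨hu0, hu1⟩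
      have h3 := wf_cc hcr hpos ((Nat.cast_nonneg j).trans ht.1) (by linarith [ht.2])
      have h4 : cp6 (ψn n) (q n g) t = u := htu
      rw [h4, Real.toNNReal_coe] at h3
      change |wf6 (ψn n) (q n g) (ν n g) u - _| ≤ _
      rw [h3]
      exact h2 t ht
    have hmono : ∀ n ε ε', ε ≤ ε' → P n ε → P n ε' := by
      intro n ε ε' hle h g hg j hj hb
      obtain ⟨h2, h3⟩ := h g hg j hj hb
      exact ⟨h2.trans hle, fun u hu hu' => (h3 u hu hu').trans hle⟩
    refine ⟨fun n => sInf {ε | 0 ≤ ε ∧ P n ε}, ?_, ?_⟩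
    · rw [Metric.tendsto_nhds]
      intro ε hε
      filter_upwards [hmain _ (half_pos hε)] with n hn
      have h1 : sInf {ε | 0 ≤ ε ∧ P n ε} ≤ ε / 2 :=
        csInf_le ⟨0, fun x hx => hx.1⟩ ⟨by positivity, hn⟩
      have h2 : 0 ≤ sInf {ε | 0 ≤ ε ∧ P n ε} :=
        le_csInf ⟨ε / 2, by positivity, hn⟩ fun x hx => hx.1
      rw [Real.dist_eq, sub_zero, abs_of_nonneg h2]
      linarith
    · filter_upwards [hmain 1 one_pos] with n hn
      intro h hh j hj hb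
      have hne : {ε | 0 ≤ ε ∧ P n ε}.Nonempty := ⟨1, zero_le_one, hn⟩
      exact ⟨le_csInf hne fun ε hε => (hε.2 h hh j hj hb).1,
        fun u hu hu' => le_csInf hne fun ε hε => (hε.2 h hh j hj hb).2 u hu hu'⟩
  far := by
    intro T R
    filter_upwards [hS.stepBy T R one_pos] with n hn g hg
    by_contra hc
    push Not at hc
    have hpos := (hS.pc n g hg).pos
    obtain ⟨m, hm⟩ : ∃ m, ν n g = m + 1 := ⟨ν n g - 1, by omega⟩
    have hb : ∀ j < ν n g, cp6 (ψn n) (q n g) j ≤ T ∧ |wd6 (ψn n) (q n g) j| ≤ R := by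
      intro j hj
      have h1 := hc j hj
      rwa [exs_c n hj, exs_V hS n hg hj] at h1
    obtain ⟨h1, -⟩ := hn g hg m (by omega) fun i hi => hb i (by omega)
    omega

end

end Vale.Agent.P167.SLE
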