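import Vale.Agent.P167.SLE.Det6

/-!
# P167, block UNIQ6: the trace is determined by the driver
-/

open Set Filter Topology Metric Vale.Agent.P164 Bornology

namespace Vale.Agent.P167.SLE

open Vale.Agent.P153.R2 Vale.Agent.P153.R2.ARCX

/-- a connected set through a point of an unbounded component stays in it -/
theorem mem_unbComp_of_joined {S C : Set ℂ} {z w : ℂ} (hC : IsPreconnected C) (hCS : C ⊆ S)
    (hz : z ∈ C) (hw : w ∈ C) (hwS : w ∈ unbComp S) : z ∈ unbComp S := by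
  refine ⟨hCS hz, fun hb => hwS.2 ?_⟩
  have h1 : z ∈ connectedComponentIn S w := hC.subset_connectedComponentIn hw hCS hz
  rw [connectedComponentIn_eq h1]
  exact hb

/-- in an open set, the closure of a subset of the unbounded components meets the set only in the
unbounded components -/
theorem mem_unbComp_of_closure {S A : Set ℂ} (hS : IsOpen S) (hA : A ⊆ unbComp S) {z : ℂ}
    (hz : z ∈ S) (hzA : z ∈ closure A) : z ∈ unbComp S := by
  obtain ⟨ε, hε, hb⟩ := Metric.isOpen_iff.1 hS z hz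
  obtain ⟨w, hw, hzw⟩ := Metric.mem_closure_iff.1 hzA ε hε
  refine mem_unbComp_of_joined (convex_ball z ε).isPreconnected hb (mem_ball_self hε) ?_ (hA hw)
  rwa [mem_ball, dist_comm]

/-- there is a boundary point of the later domain inside the earlier one -/
theorem exists_frontier {W : ℝ → ℝ} (hW : Continuous W) {s t : ℝ} (hs : 0 ≤ s) (hst : s < t) :
    ∃ z ∈ loewnerDomain W s, z ∉ loewnerDomain W t ∧ z ∈ closure (loewnerDomain W t) := by
  by_contra hcon
  push Not at hcon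
  have ht : 0 ≤ t := hs.trans hst.le
  obtain ⟨z, hz, hzt⟩ := HULL.dom_strict hW hs hst
  have hsub : loewnerDomain W t ⊆ loewnerDomain W s := fun _ hv => dom_mono hst.le hv
  obtain ⟨w, hw⟩ : (loewnerDomain W t).Nonempty := by
    by_contra h
    rw [not_nonempty_iff_eq_empty] at h
    exact HULL.not_bounded_dom hW (t := t) (by rw [h]; exact Bornology.isBounded_empty)
  have hpre := HULL.isPreconnected_dom hW hs
  have := hpre (loewnerDomain W t) (closure (loewnerDomain W t))ᶜ (ARCX.isOpen_dom hW ht)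
    isClosed_closure.isOpen_compl (fun v hv => ?_) ⟨w, hsub hw, hw⟩
    ⟨z, hz, fun h => hcon z hz hzt h⟩
  · obtain ⟨v, -, hv1, hv2⟩ := this
    exact hv2 (subset_closure hv1)
  · by_cases h : v ∈ loewnerDomain W t
    · exact Or.inl h
    · exact Or.inr (hcon v hv h)

theorem isCompact_trace {W : ℝ → ℝ} {γ : ℝ → ℂ} (h : IsTrace W γ) (t : ℝ) :
    IsCompact (γ '' Icc 0 t) :=
  isCompact_Icc.image_of_continuousOn (h.cont.mono fun _ hu => hu.1)

theorem isOpen_compl_trace {W : ℝ → ℝ} {γ : ℝ → ℂ} (h : IsTrace W γ) (t : ℝ) :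
    IsOpen ({z : ℂ | 0 < z.im} \ γ '' Icc 0 t) :=
  (isOpen_lt continuous_const Complex.continuous_im).sdiff (isCompact_trace h t).isClosed

/-- a boundary point of the later domain inside the earlier one is visited by the trace exactly
when it disappears -/
theorem exists_time {W : ℝ → ℝ} {γ : ℝ → ℂ} (h : IsTrace W γ) {s t : ℝ}
    (hs : 0 ≤ s) (hst : s < t) {z : ℂ} (hzs : z ∈ loewnerDomain W s)
    (hzt : z ∉ loewnerDomain W t) (hzc : z ∈ closure (loewnerDomain W t)) :
    ∃ r ∈ Ioc s t, γ r = z ∧ (∀ r' : ℝ, 0 ≤ r' → r' < r → z ∈ loewnerDomain W r') ∧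
      z ∉ loewnerDomain W r := by
  have ht : 0 ≤ t := hs.trans hst.le
  have hzim : 0 < z.im := by
    rw [h.domain_eq s hs] at hzs
    exact hzs.1.1
  have key : ∀ r' : ℝ, 0 ≤ r' → r' ≤ t → z ∉ γ '' Icc 0 r' → z ∈ loewnerDomain W r' := by
    intro r' h0 h1 h2
    rw [h.domain_eq r' h0]
    refine mem_unbComp_of_closure (isOpen_compl_trace h r') (A := loewnerDomain W t) ?_
      ⟨hzim, h2⟩ hzc
    rw [← h.domain_eq r' h0]
    exact fun _ hv => dom_mono h1 hv
  have hmem : z ∈ γ '' Icc 0 t := by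
    by_contra hcon
    exact hzt (key t ht le_rfl hcon)
  set A : Set ℝ := {u | u ∈ Icc 0 t ∧ γ u = z} with hA
  have hAc : IsClosed A :=
    (h.cont.mono fun _ hu => hu.1 : ContinuousOn γ (Icc 0 t)).preimage_isClosed_of_isClosed
      isClosed_Icc isClosed_singleton
  have hAn : A.Nonempty := by
    obtain ⟨u, hu, hu'⟩ := hmem
    exact ⟨u, hu, hu'⟩
  have hAb : BddBelow A := ⟨0, fun u hu => hu.1.1⟩
  have hrA : sInf A ∈ A := hAc.csInf_mem hAn hAb
  have hnot : ∀ r' : ℝ, 0 ≤ r' → r' < sInf A → z ∉ γ '' Icc 0 r' := by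
    rintro r' h0 h1 ⟨u, hu, hu'⟩
    have h2 : u ∈ A := ⟨⟨hu.1, hu.2.trans (h1.le.trans hrA.1.2)⟩, hu'⟩
    exact absurd (csInf_le hAb h2) (not_le.2 (hu.2.trans_lt h1))
  refine ⟨sInf A, ⟨?_, hrA.1.2⟩, hrA.2, ?_, ?_⟩
  · by_contra hcon
    push Not at hcon
    rw [h.domain_eq s hs] at hzs
    exact hzs.1.2 ⟨sInf A, ⟨hrA.1.1, hcon⟩, hrA.2⟩
  · intro r' h0 h1
    exact key r' h0 (h1.le.trans hrA.1.2) (hnot r' h0 h1)
  · intro hcon
    rw [h.domain_eq _ hrA.1.1] at hcon
    exact hcon.1.2 ⟨sInf A, ⟨hrA.1.1, le_rfl⟩, hrA.2⟩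

/-- **The trace is determined by the driver.** -/
theorem isTrace_unique {W : ℝ → ℝ} (hW : Continuous W) {γ γ' : ℝ → ℂ} (h : IsTrace W γ)
    (h' : IsTrace W γ') {t : ℝ} (ht : 0 ≤ t) : γ t = γ' t := by
  have key : ∀ n : ℕ, ∃ r ∈ Ioc t (t + 1 / ((n : ℝ) + 1)), γ r = γ' r := by
    intro n
    have hn : t < t + 1 / ((n : ℝ) + 1) := by
      have : 0 < 1 / ((n : ℝ) + 1) := by positivity
      linarith
    obtain ⟨z, hz, hzt, hzc⟩ := exists_frontier hW ht hn
    obtain ⟨r, hr, hγ, hr1, hr2⟩ := exists_time h ht hn hz hzt hzc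
    obtain ⟨r', hr', hγ', hr1', hr2'⟩ := exists_time h' ht hn hz hzt hzc
    have heq : r = r' := by
      rcases lt_trichotomy r r' with h1 | h1 | h1
      · exact absurd (hr1' r (ht.trans hr.1.le) h1) hr2
      · exact h1
      · exact absurd (hr1 r' (ht.trans hr'.1.le) h1) hr2'
    exact ⟨r, hr, by rw [hγ, heq, hγ']⟩
  choose r hr hrγ using key
  have hlim : Tendsto r atTop (𝓝 t) := by
    refine tendsto_of_tendsto_of_tendsto_of_le_of_le tendsto_const_nhds ?_
      (fun n => (hr n).1.le) (fun n => (hr n).2)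
    have := (tendsto_one_div_add_atTop_nhds_zero_nat (𝕜 := ℝ)).const_add t
    rwa [add_zero] at this
  have hlim' : Tendsto r atTop (𝓝[Ici 0] t) :=
    tendsto_nhdsWithin_iff.2 ⟨hlim, Eventually.of_forall fun n => ht.trans (hr n).1.le⟩
  have h1 : Tendsto (fun n => γ (r n)) atTop (𝓝 (γ t)) := (h.cont t ht).tendsto.comp hlim'
  have h2 : Tendsto (fun n => γ' (r n)) atTop (𝓝 (γ' t)) := (h'.cont t ht).tendsto.comp hlim'
  simp only [hrγ] at h1
  exact tendsto_nhds_unique h1 h2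

end Vale.Agent.P167.SLE
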